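import Vale.Agent.P054.MathlibUsed
import Vale.Agent.P054.H449.RM.Sel
attribute [-instance] ProperSMul.toContinuousSMul IsTopologicalTorsor.toContinuousSMul IdemSemiring.toCanonicallyOrderedAdd IdemSemiring.toMulLeftMono IdemSemiring.toMulRightMono AddQuantale.instAddLeftMono AddQuantale.instAddRightMono Quantale.instMulLeftMono Quantale.instMulRightMono FiniteDimensional.rclike_to_real IsScalarTower.complexToReal FiniteDimensional.complexToReal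

set_option linter.all false
set_option autoImplicit false

open Finset Vale.Agent.P054K

namespace Vale.Agent.P054I

/-! ### static part -/

/-- reflection in the hyperplane through `p` orthogonal to `v` -/
noncomputable def sg {d : ℕ} (p v z : EuclideanSpace ℝ (Fin d)) : EuclideanSpace ℝ (Fin d) :=
  z - (2 * inner ℝ v (z - p) / inner ℝ v v) • v

/-- seen from `p`, all but `δ` points of `X` have at most `δ` distances and at most `k` mirrors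
through `p` -/
def FewM {d : ℕ} (X : Finset (EuclideanSpace ℝ (Fin d))) (δ k : ℝ)
    (p : EuclideanSpace ℝ (Fin d)) : Prop :=
  open scoped Classical in
  ∃ Y V : Finset (EuclideanSpace ℝ (Fin d)), Y ⊆ X ∧ ((X \ Y).card : ℝ) ≤ δ ∧
    ((Y.image (dist p)).card : ℝ) ≤ δ ∧ (V.card : ℝ) ≤ k ∧ (∀ v ∈ V, v ≠ 0) ∧
    ∀ y ∈ Y, ∀ y' ∈ Y, y ≠ y' → dist p y = dist p y' → ∃ v ∈ V, y - y' ∈ Submodule.span ℝ {v}

/-- local lemma: few points see `X` through few mirrors -/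
def LocalG (d : ℕ) (C : ℝ) (E : ℕ) : Prop :=
  open scoped Classical in
  ∀ (X P : Finset (EuclideanSpace ℝ (Fin d))) (k M : ℝ), 1 ≤ k → C * k ^ 3 ≤ X.card → 0 ≤ M →
    (∀ p ∈ P, FewM X ((X.card : ℝ) / 8) k p) →
    (∀ p0 v : EuclideanSpace ℝ (Fin d), v ≠ 0 →
      ((P.filter (fun z => inner ℝ v (z - p0) = 0)).card : ℝ) ≤ M) →
    (P.card : ℝ) ≤ C * k ^ E * M

/-! ### pairs of a block -/

/-- both strict sides of the bisector of `π` contain at least `b` points of `X` -/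
def Heavy {d : ℕ} (X : Finset (EuclideanSpace ℝ (Fin d))) (b : ℕ)
    (π : EuclideanSpace ℝ (Fin d) × EuclideanSpace ℝ (Fin d)) : Prop :=
  open scoped Classical in
  b ≤ (X.filter (fun z => dist z π.1 < dist z π.2)).card ∧
    b ≤ (X.filter (fun z => dist z π.2 < dist z π.1)).card

/-- (L) few light pairs -/
def LightProp (d : ℕ) : Prop :=
  open scoped Classical in
  ∀ (X : Finset (EuclideanSpace ℝ (Fin d))) (b : ℕ), 1 ≤ b →
    (X.offDiag.filter (fun π => ¬ Heavy X b π)).card ≤ 4 * 5 ^ d * b * X.card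

/-- all blocks of all rounds -/
noncomputable def Bl {α : Type} {R : ℕ} (F : Fin R → Finset (Finset α)) :
    Finset (Σ _ : Fin R, Finset α) := Finset.univ.sigma F

/-- the window: few distances from `p` on most of `X` -/
def Win {d : ℕ} (X : Finset (EuclideanSpace ℝ (Fin d))) (δ : ℝ)
    (p : EuclideanSpace ℝ (Fin d)) : Prop :=
  open scoped Classical in
  ∃ Y ⊆ X, ((X \ Y).card : ℝ) ≤ δ ∧ ((Y.image (dist p)).card : ℝ) ≤ δ

/-- the dual lines through `p` (that is, bisectors through `p`) carrying at least `ρ` pairs -/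
noncomputable def rl {d s : ℕ}
    (J : Finset (Fin s × (EuclideanSpace ℝ (Fin d) × EuclideanSpace ℝ (Fin d)))) (ρ : ℝ)
    (p : EuclideanSpace ℝ (Fin d)) : Finset (Submodule ℝ (EuclideanSpace ℝ (Fin d) × ℝ)) :=
  open scoped Classical in
  (J.filter (fun i => vv i ∈ hyp p ∧ ρ ≤ mass J vv (Submodule.span ℝ {vv i}))).image
    (fun i => Submodule.span ℝ {vv i})

/-- the line `L` is the dual line of a pair that is heavy for `X` -/
def HvL {d : ℕ} (X : Finset (EuclideanSpace ℝ (Fin d))) (b : ℕ)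
    (L : Submodule ℝ (EuclideanSpace ℝ (Fin d) × ℝ)) : Prop :=
  ∃ π : EuclideanSpace ℝ (Fin d) × EuclideanSpace ℝ (Fin d), π.1 ≠ π.2 ∧
    L = Submodule.span ℝ {dualVec π} ∧ Heavy X b π

/-- the pairs of balance level `a`: both strict sides of the bisector contain at least `2 ^ a`
points of the block, one of them fewer than `2 ^ (a + 1)` -/
noncomputable def Jl {d s : ℕ} (F : Fin s → Finset (Finset (EuclideanSpace ℝ (Fin d)))) (a : ℕ) :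
    Finset (Fin s × (EuclideanSpace ℝ (Fin d) × EuclideanSpace ℝ (Fin d))) :=
  open scoped Classical in
  (idx F).filter (fun i => ∃ X ∈ F i.1, i.2 ∈ X.offDiag ∧ Heavy X (2 ^ a) i.2 ∧
    ¬ Heavy X (2 ^ (a + 1)) i.2)

/-- heavy mirrors of level `a` through `p` for which the block `X` is balanced -/
noncomputable def vb {d s : ℕ} (F : Fin s → Finset (Finset (EuclideanSpace ℝ (Fin d)))) (a : ℕ)
    (μ : ℝ) (p : EuclideanSpace ℝ (Fin d)) (X : Finset (EuclideanSpace ℝ (Fin d))) :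
    Finset (Submodule ℝ (EuclideanSpace ℝ (Fin d) × ℝ)) :=
  open scoped Classical in (rl (Jl F a) μ p).filter (fun L => HvL X (2 ^ a) L)

/-- outcome of the adaptive choice -/
structure DataA {d : ℕ} (P Q : Finset (EuclideanSpace ℝ (Fin d))) (s x l t1 I C1 : ℕ)
    (Λ κ : ℝ) (F : Fin s → Finset (Finset (EuclideanSpace ℝ (Fin d))))
    (jp : EuclideanSpace ℝ (Fin d) → ℕ) : Prop where
  hs1 : 1 ≤ s
  hx8 : 8 ≤ x
  hΛ1 : 1 ≤ Λ
  hκ1 : 1 ≤ κ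
  hst : (s:ℝ) ≤ (48 * C1 * (l:ℝ)) * t1
  hxlow : 1024 * (Λ / s) * (C1 * t1) ≤ x
  hxup : (x:ℝ) ≤ 2 ^ (I + 14) * Λ * (C1 * t1) / s
  hQP : Q ⊆ P
  hQne : Q.Nonempty
  hPQ : (P.card : ℝ) ≤ l * Q.card
  hcell : (P.card : ℝ) ≤ 2 ^ 15 * 3 ^ d * (l:ℝ) ^ (d + 3) * (C1 * t1) * (s:ℝ) ^ (d - 1)
  hFsub : ∀ τ, ∀ X ∈ F τ, X ⊆ Q
  hFcard : ∀ τ, ∀ X ∈ F τ, X.card = x
  hFdis : ∀ τ, ∀ X ∈ F τ, ∀ X' ∈ F τ, ∀ a ∈ X, a ∈ X' → X = X'
  hBlow : (s:ℝ) * Q.card ≤ 8 * x * (Bl F).card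
  hBup : (x:ℝ) * (Bl F).card ≤ s * Q.card
  hidx : ((idx F).card : ℝ) ≤ s * Q.card * x
  hsep : ∀ σ ∈ S2 P, ∑ τ, ∑ X ∈ F τ, sepc rng σ X ≤ (x * Q.card) * (4 * Λ)
  hoff : ∀ i ∈ idx F, i.2 ∈ P.offDiag
  hline : ∀ i ∈ idx F, mass (idx F) vv (Submodule.span ℝ {vv i}) ≤ 8 * Q.card * Λ
  hj1 : ∀ p ∈ P, (2:ℝ) ^ (jp p) ≤ Q.card
  hj2 : ∀ p ∈ P, s * Q.card * 2 ^ (jp p) / (2048 * κ) ≤ mass (idx F) vv (hyp p)
  hj3 : ∀ p ∈ P, ∀ Φ ⊆ P, p ∈ Φ → ∀ A' : Submodule ℝ (EuclideanSpace ℝ (Fin d) × ℝ),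
        A' = (⨅ p' ∈ Φ, hyp p') → A' ≠ ⊥ →
        (Q.card : ℝ) ≤ 2 * 2 ^ (jp p) *
          ((ncos Q para A' : ℝ) * (s:ℝ) ^ (Module.finrank ℝ A' - 1))

/-! ### the rows as propositions -/

/-- (G1) -/
def WinBlocks (d : ℕ) : Prop :=
  open scoped Classical in
  ∀ (P Q : Finset (EuclideanSpace ℝ (Fin d))) (s x l t1 I C1 : ℕ) (Λ κ : ℝ)
    (F : Fin s → Finset (Finset (EuclideanSpace ℝ (Fin d)))) (jp : EuclideanSpace ℝ (Fin d) → ℕ),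
    DataA P Q s x l t1 I C1 Λ κ F jp → ∀ (ε : ℝ), 0 < ε → 4 ≤ C1 * ε ^ 2 → 4 ≤ ε * x →
    ∀ p ∈ P, (P.image (dist p)).card ≤ t1 →
    8 * ((Bl F).filter (fun B => ¬ Win B.2 (ε * x / 2) p)).card ≤ (Bl F).card

/-- (G2) -/
def HeavyBlocks (d : ℕ) : Prop :=
  open scoped Classical in
  ∀ (P Q : Finset (EuclideanSpace ℝ (Fin d))) (s x l t1 I C1 : ℕ) (Λ κ : ℝ)
    (F : Fin s → Finset (Finset (EuclideanSpace ℝ (Fin d)))) (jp : EuclideanSpace ℝ (Fin d) → ℕ),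
    DataA P Q s x l t1 I C1 Λ κ F jp → 1 ≤ l → ∀ (η : ℝ) (μ : ℕ → ℝ), 0 < η → ∀ p ∈ P,
    (∀ a < l, ((rl (Jl F a) (μ a) p).card : ℝ) ≤ s * η * 4 ^ a / (x:ℝ) ^ 2) →
    8 * ((Bl F).filter (fun B => 256 * l * Λ * η <
      ∑ a ∈ range l, ((vb F a (μ a) p B.2).card : ℝ))).card ≤ (Bl F).card

/-- (G3) -/
def BadBlocks (d : ℕ) : Prop :=
  open scoped Classical in
  ∀ (P Q : Finset (EuclideanSpace ℝ (Fin d))) (s x l t1 I C1 : ℕ) (Λ κ : ℝ)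
    (F : Fin s → Finset (Finset (EuclideanSpace ℝ (Fin d)))) (jp : EuclideanSpace ℝ (Fin d) → ℕ),
    DataA P Q s x l t1 I C1 Λ κ F jp → ∀ (ε : ℝ), 0 < ε →
    ∀ J ⊆ idx F, ∀ p : EuclideanSpace ℝ (Fin d), mass J vv (hyp p) ≤ ε / 128 * (s * Q.card) →
    8 * ((Bl F).filter (fun B => ε * x / 2 < ((B.2.filter (fun q => ∃ q' ∈ B.2,
      (B.1, (q, q')) ∈ J ∧ dualVec (q, q') ∈ hyp p)).card : ℝ))).card ≤ (Bl F).card

/-! ### the key proposition and the result -/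

/-- the key inequality as a property of the constants `K, c, A`; `z ≥ 1` is free; `E` is the
exponent of the local lemma -/
def KeyG (d : ℕ) (K : ℝ) (c A E : ℕ) : Prop :=
  open scoped Classical in
  ∀ (P : Finset (EuclideanSpace ℝ (Fin d))) (t t1 l I : ℕ) (N g z : ℝ), t1 = t + 1 →
    (∀ p ∈ P, (P.image (dist p)).card ≤ t + 1) → 1 ≤ N → 2 * Real.log N + 1 ≤ l →
    2 ^ (I + 1) ≤ l → 16 * (2 * Real.log N + 1) * (A * (t1:ℝ) + 2) ≤ (l:ℝ) ^ I →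
    2 * (P.card : ℝ) ^ 2 ≤ N → (P.card : ℝ) * (t1:ℝ) ≤ N →
    20 * (Real.log (A * N * (l:ℝ) ^ 2 * (t1:ℝ) + 3) + 1) ≤ l →
    (∀ j < d, PinnedBy j t (l * (t1:ℝ) ^ j)) → PinnedBy (d - 1) t g → 1 ≤ g → 1 ≤ z →
    (P.card : ℝ) ≤ K * (l:ℝ) ^ c * t1 ∨
    (P.card : ℝ) ^ 2 ≤ K * (l:ℝ) ^ c * (z * (t1:ℝ) ^ d) ∨
    (P.card : ℝ) ^ (2 * d) * z ^ (2 * (d - 1)) ≤ K * (l:ℝ) ^ c * (t1:ℝ) ^ (d ^ 2 + 1) ∨
    (P.card : ℝ) ^ 2 ≤ K * (l:ℝ) ^ c * (z ^ 18 * (t1:ℝ) ^ (d - 1)) ∨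
    (P.card : ℝ) ≤ K * (l:ℝ) ^ c * (z ^ (3 * E) * g)

end Vale.Agent.P054I
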