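import Vale.Agent.P054.MathlibUsed
import Vale.Agent.P054.H449.IM.Defs
attribute [-instance] ProperSMul.toContinuousSMul IsTopologicalTorsor.toContinuousSMul IdemSemiring.toCanonicallyOrderedAdd IdemSemiring.toMulLeftMono IdemSemiring.toMulRightMono AddQuantale.instAddLeftMono AddQuantale.instAddRightMono Quantale.instMulLeftMono Quantale.instMulRightMono FiniteDimensional.rclike_to_real IsScalarTower.complexToReal FiniteDimensional.complexToReal

set_option linter.all false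
set_option autoImplicit false

open Finset Vale.Agent.P054K

namespace Vale.Agent.P054I

/-- the pairs of level `a` on lines with fewer than `μ` pairs of level `a` -/
noncomputable def Jt {d s : ℕ} (F : Fin s → Finset (Finset (EuclideanSpace ℝ (Fin d)))) (a : ℕ)
    (μ : ℝ) : Finset (Fin s × (EuclideanSpace ℝ (Fin d) × EuclideanSpace ℝ (Fin d))) :=
  open scoped Classical in
  (Jl F a).filter (fun i => mass (Jl F a) vv (Submodule.span ℝ {vv i}) < μ)

/-- (G5) a point with few heavy mirrors and few light pairs sees most blocks through few mirrors -/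
def FewBlocks (d : ℕ) : Prop :=
  open scoped Classical in
  ∀ (P Q : Finset (EuclideanSpace ℝ (Fin d))) (s x l t1 I : ℕ) (Λ κ : ℝ)
    (F : Fin s → Finset (Finset (EuclideanSpace ℝ (Fin d)))) (jp : EuclideanSpace ℝ (Fin d) → ℕ),
    DataA P Q s x l t1 I 256 Λ κ F jp → 1 ≤ l → x < 2 ^ l → 32 ≤ x →
    ∀ (η : ℝ) (μ : ℕ → ℝ), 0 < η → ∀ p ∈ P, (P.image (dist p)).card ≤ t1 →
    (∀ a < l, ((rl (Jl F a) (μ a) p).card : ℝ) ≤ s * η * 4 ^ a / (x:ℝ) ^ 2) →
    (∀ a < l, mass (Jt F a (μ a)) vv (hyp p) ≤ s * Q.card / (1024 * l)) →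
    8 * ((Bl F).filter (fun B => ¬ FewM B.2 ((x:ℝ) / 8) (256 * l * Λ * η) p)).card ≤
      3 * (Bl F).card

/-- (G6) double counting: one block is good for half of the points -/
def OneBlock (d : ℕ) : Prop :=
  open scoped Classical in
  ∀ (s : ℕ) (F : Fin s → Finset (Finset (EuclideanSpace ℝ (Fin d))))
    (P0 : Finset (EuclideanSpace ℝ (Fin d))) (δ k : ℝ), 0 < (Bl F).card →
    (∀ p ∈ P0, 8 * ((Bl F).filter (fun B => ¬ FewM B.2 δ k p)).card ≤ 3 * (Bl F).card) →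
    ∃ B ∈ Bl F, P0.card ≤ 2 * (P0.filter (fun p => FewM B.2 δ k p)).card

/-- (G7) numerics: elimination of the scale -/
def ElimG (d : ℕ) : Prop :=
  ∀ (n W V t s z : ℝ), 0 ≤ n → 1 ≤ W → 1 ≤ V → 1 ≤ t → 1 ≤ s → 1 ≤ z →
    n ≤ V * t * s ^ (d - 1) →
    n ^ 2 ≤ W * (t ^ (d + 1) / (s ^ 2 * z ^ 2) + z * t ^ d) →
    n ^ 2 ≤ 2 * W * (z * t ^ d) ∨
      n ^ (2 * d) * z ^ (2 * (d - 1)) ≤ (2 * W) ^ (d - 1) * V ^ 2 * t ^ (d ^ 2 + 1)

end Vale.Agent.P054I
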