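import Vale.Agent.P054.MathlibUsed
import Vale.Agent.P054.H449.IM.Defs2
import Vale.Agent.P054.H438.G.Pat
attribute [-instance] ProperSMul.toContinuousSMul IsTopologicalTorsor.toContinuousSMul IdemSemiring.toCanonicallyOrderedAdd IdemSemiring.toMulLeftMono IdemSemiring.toMulRightMono AddQuantale.instAddLeftMono AddQuantale.instAddRightMono Quantale.instMulLeftMono Quantale.instMulRightMono FiniteDimensional.rclike_to_real IsScalarTower.complexToReal FiniteDimensional.complexToReal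

set_option linter.all false
set_option autoImplicit false

open Finset Vale.Agent.P054K Vale.Agent.P054G

namespace Vale.Agent.P054I

/-- `DataA` together with the number of cosets of a rich subspace below `hyp p` -/
structure DataB {d : ℕ} (P Q : Finset (EuclideanSpace ℝ (Fin d))) (s x l t1 I C1 : ℕ)
    (Λ κ : ℝ) (F : Fin s → Finset (Finset (EuclideanSpace ℝ (Fin d))))
    (jp : EuclideanSpace ℝ (Fin d) → ℕ) : Prop where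
  toA : DataA P Q s x l t1 I C1 Λ κ F jp
  hj4 : open scoped Classical in
    ∀ p ∈ P, (2:ℝ) ^ (jp p) ≤ 128 * κ ∨
      ∃ A' : Submodule ℝ (EuclideanSpace ℝ (Fin d) × ℝ), A' ≤ hyp p ∧
        ∑ B ∈ Bl F, ((B.2.image (fun q => A'.mkQ (para q))).card : ℝ) ≤
          κ * (s * Q.card) / 2 ^ (jp p)

/-- (U1) the adaptive choice with the number of cosets -/
def HasDataB (d : ℕ) : Prop :=
  open scoped Classical in
  ∀ (C1 : ℕ) (P : Finset (EuclideanSpace ℝ (Fin d))) (t1 l I : ℕ) (N κ : ℝ), 1 ≤ C1 → 1 ≤ t1 →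
    (∀ p ∈ P, (P.image (dist p)).card ≤ t1) → 1 ≤ N → 2 * Real.log N + 1 ≤ l → 2 ^ (I + 1) ≤ l →
    16 * (2 * Real.log N + 1) * ((((C1 * t1 : ℕ)) : ℝ) + 2) ≤ (l:ℝ) ^ I →
    2 * (P.card : ℝ) ^ 2 ≤ N →
    2 ^ (2 * I + 17) * (2 * Real.log N + 1) * (((C1 * t1 : ℕ)) : ℝ) < P.card →
    κ = 2 * (5 * (l:ℝ)) ^ (d + 1) →
    (∀ s : ℕ, 16 * (2 * Real.log N + 1) * ((((C1 * t1 : ℕ)) : ℝ) + 2) ≤ s →
      ¬ Gd P P (S2 P) rng s 2) →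
    ∃ (s x : ℕ) (Q : Finset (EuclideanSpace ℝ (Fin d)))
      (F : Fin s → Finset (Finset (EuclideanSpace ℝ (Fin d))))
      (jp : EuclideanSpace ℝ (Fin d) → ℕ),
      DataB P Q s x l t1 I C1 (2 * Real.log N + 1) κ F jp

/-- (U2) large classes: most blocks have most points in triangles of heavy mirrors -/
def TriBlocks (d : ℕ) : Prop :=
  open scoped Classical in
  ∀ (P Q : Finset (EuclideanSpace ℝ (Fin d))) (s x l t1 I C1 : ℕ) (Λ κ : ℝ)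
    (F : Fin s → Finset (Finset (EuclideanSpace ℝ (Fin d)))) (jp : EuclideanSpace ℝ (Fin d) → ℕ),
    DataB P Q s x l t1 I C1 Λ κ F jp → 1 ≤ l → x < 2 ^ l →
    ∀ (η : ℝ) (μ : ℕ → ℝ), 0 < η → ∀ p ∈ P, 3072 * κ ≤ (2:ℝ) ^ (jp p) →
    (∀ a < l, ((rl (Jl F a) (μ a) p).card : ℝ) ≤ s * η * 4 ^ a / (x:ℝ) ^ 2) →
    (∀ a < l, mass (Jt F a (μ a)) vv (hyp p) ≤ s * Q.card * 2 ^ (jp p) / (2 ^ 26 * κ * l)) →
    8 * ((Bl F).filter (fun B => ¬ Bad B.2 (256 * l * Λ * η) p)).card ≤ 3 * (Bl F).card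

/-- (U3) local lemma for bad points -/
def LocalB (d : ℕ) (C : ℝ) (E : ℕ) : Prop :=
  open scoped Classical in
  ∀ (X P : Finset (EuclideanSpace ℝ (Fin d))) (k M : ℝ), 1 ≤ k → C * k ^ 3 ≤ X.card → 0 ≤ M →
    (∀ p ∈ P, Bad X k p) →
    (∀ p0 v : EuclideanSpace ℝ (Fin d), v ≠ 0 →
      ((P.filter (fun z => inner ℝ v (z - p0) = 0)).card : ℝ) ≤ M) →
    (P.card : ℝ) ≤ C * k ^ E * M

/-- the key inequality as a property of the constants `K, c, A`; `η ≥ 1` is free; `E` is the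
exponent of the local lemma -/
def KeyH (d : ℕ) (K : ℝ) (c A E : ℕ) : Prop :=
  open scoped Classical in
  ∀ (P : Finset (EuclideanSpace ℝ (Fin d))) (t t1 l I : ℕ) (N g η : ℝ), t1 = t + 1 →
    (∀ p ∈ P, (P.image (dist p)).card ≤ t + 1) → 1 ≤ N → 2 * Real.log N + 1 ≤ l →
    2 ^ (I + 1) ≤ l → 16 * (2 * Real.log N + 1) * (A * (t1:ℝ) + 2) ≤ (l:ℝ) ^ I →
    2 * (P.card : ℝ) ^ 2 ≤ N → (P.card : ℝ) * (t1:ℝ) ≤ N →
    20 * (Real.log (A * N * (l:ℝ) ^ 2 * (t1:ℝ) + 3) + 1) ≤ l →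
    (∀ j < d, PinnedBy j t (l * (t1:ℝ) ^ j)) → PinnedBy (d - 1) t g → 1 ≤ g → 1 ≤ η →
    (P.card : ℝ) ≤ K * (l:ℝ) ^ c * t1 ∨
    (P.card : ℝ) ^ 2 ≤ K * (l:ℝ) ^ c * (t1:ℝ) ^ d ∨
    (P.card : ℝ) ^ (2 * d) * η ^ (d - 1) ≤ K * (l:ℝ) ^ c * (t1:ℝ) ^ (d ^ 2 + 1) ∨
    (P.card : ℝ) ^ 2 ≤ K * (l:ℝ) ^ c * (η ^ 6 * (t1:ℝ) ^ (d - 1)) ∨
    (P.card : ℝ) ≤ K * (l:ℝ) ^ c * (η ^ E * g)

/-- (U4) numerics: elimination of the scale -/
def ElimH (d : ℕ) : Prop :=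
  ∀ (n W V t s η : ℝ), 0 ≤ n → 1 ≤ W → 1 ≤ V → 1 ≤ t → 1 ≤ s → 1 ≤ η →
    n ≤ V * t * s ^ (d - 1) →
    n ^ 2 ≤ W * (t ^ (d + 1) / (s ^ 2 * η) + t ^ d) →
    n ^ 2 ≤ 2 * W * t ^ d ∨
      n ^ (2 * d) * η ^ (d - 1) ≤ (2 * W) ^ (d - 1) * V ^ 2 * t ^ (d ^ 2 + 1)

end Vale.Agent.P054I
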