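import Vale.Agent.P054.MathlibUsed
import Vale.Agent.P054.H449.IM.Defs3
attribute [-instance] ProperSMul.toContinuousSMul IsTopologicalTorsor.toContinuousSMul IdemSemiring.toCanonicallyOrderedAdd IdemSemiring.toMulLeftMono IdemSemiring.toMulRightMono AddQuantale.instAddLeftMono AddQuantale.instAddRightMono Quantale.instMulLeftMono Quantale.instMulRightMono FiniteDimensional.rclike_to_real IsScalarTower.complexToReal FiniteDimensional.complexToReal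

set_option linter.all false
set_option autoImplicit false

open Finset Vale.Agent.P054K Vale.Agent.P054G

namespace Vale.Agent.P054I

/-- the key inequality, flexible form: `hloc` is the local lemma at the number of mirrors
`256 l² η`, `htop` excludes the top scale -/
def KeyX (d : ℕ) (K : ℝ) (c A : ℕ) : Prop :=
  open scoped Classical in
  ∀ (P : Finset (EuclideanSpace ℝ (Fin d))) (t t1 l I : ℕ) (N η x0 Bd : ℝ), t1 = t + 1 →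
    (∀ p ∈ P, (P.image (dist p)).card ≤ t + 1) → 1 ≤ N → 2 * Real.log N + 1 ≤ l →
    2 ^ (I + 1) ≤ l → 16 * (2 * Real.log N + 1) * (A * (t1:ℝ) + 2) ≤ (l:ℝ) ^ I →
    2 * (P.card : ℝ) ^ 2 ≤ N → (P.card : ℝ) * (t1:ℝ) ≤ N →
    20 * (Real.log (A * N * (l:ℝ) ^ 2 * (t1:ℝ) + 3) + 1) ≤ l →
    (∀ j < d, PinnedBy j t (l * (t1:ℝ) ^ j)) → 1 ≤ η → 1 ≤ x0 →
    (∀ X ⊆ P, ∀ P0 ⊆ P, x0 ≤ X.card → (∀ p ∈ P0, Bad X (256 * (l:ℝ) ^ 2 * η) p) →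
      (P0.card : ℝ) ≤ Bd) →
    (∀ s : ℕ, 16 * (2 * Real.log N + 1) * ((t1:ℝ) + 2) ≤ s → ¬ Gd P P (S2 P) rng s 2) →
    (P.card : ℝ) ≤ K * (l:ℝ) ^ c * t1 ∨
    (P.card : ℝ) ^ 2 ≤ K * (l:ℝ) ^ c * (t1:ℝ) ^ d ∨
    (P.card : ℝ) ^ (2 * d) * η ^ (d - 1) ≤ K * (l:ℝ) ^ c * (t1:ℝ) ^ (d ^ 2 + 1) ∨
    (P.card : ℝ) ^ 2 ≤ K * (l:ℝ) ^ c * (x0 ^ 2 * (t1:ℝ) ^ (d - 1)) ∨
    (P.card : ℝ) ≤ 4 * Bd ∨
    (P.card : ℝ) ≤ K * (l:ℝ) ^ c * η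

end Vale.Agent.P054I
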