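import Vale.Agent.P054.MathlibUsed
import Vale.Agent.P054.H449.IM.Defs
attribute [-instance] ProperSMul.toContinuousSMul IsTopologicalTorsor.toContinuousSMul IdemSemiring.toCanonicallyOrderedAdd IdemSemiring.toMulLeftMono IdemSemiring.toMulRightMono AddQuantale.instAddLeftMono AddQuantale.instAddRightMono Quantale.instMulLeftMono Quantale.instMulRightMono FiniteDimensional.rclike_to_real IsScalarTower.complexToReal FiniteDimensional.complexToReal

set_option linter.all false
set_option autoImplicit false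

open Finset Vale.Agent.P054K

namespace Vale.Agent.P054I

theorem card_Bl {α : Type} {R : ℕ} (F : Fin R → Finset (Finset α)) :
    (Bl F).card = ∑ τ, (F τ).card := by
  unfold Bl
  rw [Finset.card_sigma]

theorem mass_sdiff_self {V ι : Type} [AddCommGroup V] [Module ℝ V] (dec : DecidableEq ι)
    (J : Finset ι) (v : ι → V) (A : Submodule ℝ V) :
    mass (@SDiff.sdiff _ (@Finset.instSDiff ι dec) J J) v A = 0 := by
  have h0 : @SDiff.sdiff _ (@Finset.instSDiff ι dec) J J = ∅ := by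
    ext i
    rw [mem_sdiff]
    constructor
    · intro h; exact absurd h.1 h.2
    · intro h; exact absurd h (notMem_empty i)
  rw [h0]
  unfold mass
  rw [filter_empty, card_empty, Nat.cast_zero]

open scoped Classical in
/-- the adaptive choice -/
theorem dataA_of (d : ℕ) (hd : 1 ≤ d) (C1 : ℕ) (hC1 : 1 ≤ C1)
    (P : Finset (EuclideanSpace ℝ (Fin d))) (t1 l I : ℕ)
    (N : ℝ) (ht1 : 1 ≤ t1) (hpin : ∀ p ∈ P, (P.image (dist p)).card ≤ t1)
    (hN : 1 ≤ N) (h4 : 2 * Real.log N + 1 ≤ l) (h5 : 2 ^ (I + 1) ≤ l)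
    (h6 : 16 * (2 * Real.log N + 1) * ((((C1 * t1 : ℕ)) : ℝ) + 2) ≤ (l:ℝ) ^ I)
    (h7 : 2 * (P.card : ℝ) ^ 2 ≤ N)
    (hbig : 2 ^ (2 * I + 17) * (2 * Real.log N + 1) * (((C1 * t1 : ℕ)) : ℝ) < P.card)
    (κ : ℝ) (hκ : κ = 2 * (5 * (l:ℝ)) ^ (d + 1))
    (hgd : ∀ s : ℕ, 16 * (2 * Real.log N + 1) * ((((C1 * t1 : ℕ)) : ℝ) + 2) ≤ s →
      ¬ Gd P P (S2 P) rng s 2) :
    ∃ (s x : ℕ) (Q : Finset (EuclideanSpace ℝ (Fin d)))
      (F : Fin s → Finset (Finset (EuclideanSpace ℝ (Fin d))))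
      (jp : EuclideanSpace ℝ (Fin d) → ℕ),
      DataA P Q s x l t1 I C1 (2 * Real.log N + 1) κ F jp := by
  obtain ⟨T, hT⟩ : ∃ T : ℕ, T = C1 * t1 := ⟨_, rfl⟩
  rw [← hT] at h6 hbig hgd
  have hTt : t1 ≤ T := by rw [hT]; exact Nat.le_mul_of_pos_left _ hC1
  have hT1 : 1 ≤ T := ht1.trans hTt
  set Λ : ℝ := 2 * Real.log N + 1 with hΛ
  have hlogN : 0 ≤ Real.log N := Real.log_nonneg hN
  have hΛ1 : 1 ≤ Λ := by rw [hΛ]; linarith only [hlogN]
  have htR : (1:ℝ) ≤ T := by exact_mod_cast hT1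
  have hPpos : (0:ℝ) < P.card := lt_of_le_of_lt (by positivity) hbig
  have hP : P.Nonempty := by rw [← card_pos]; exact_mod_cast hPpos
  have hl1 : 1 ≤ l := Nat.one_le_two_pow.trans h5
  have hlR : (1:ℝ) ≤ l := by exact_mod_cast hl1
  have hl0 : (0:ℝ) < l := by linarith only [h4, hlogN]
  have hIl : (2:ℝ) ^ I ≤ l := by
    have h5R : (2:ℝ) ^ (I + 1) ≤ l := by exact_mod_cast h5
    have : (2:ℝ) ^ (I + 1) = 2 * 2 ^ I := by ring
    rw [this] at h5R
    have h2 : (0:ℝ) < 2 ^ I := by positivity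
    linarith only [h5R]
  have hn1 : (1:ℝ) ≤ P.card := by exact_mod_cast hP.card_pos
  have hPN : (P.card : ℝ) ≤ N := by nlinarith only [h7, hn1]
  have hS : (S2 P).Nonempty := by
    rw [← card_pos, card_S2]
    have := hP.card_pos
    (clear * - this; positivity)
  have hSlog : Real.log (S2 P).card ≤ Λ := by
    have h1 : ((S2 P).card : ℝ) ≤ N := by
      rw [card_S2]; push_cast; exact h7
    have h2 : (0:ℝ) < (S2 P).card := by exact_mod_cast hS.card_pos
    have h3 := Real.log_le_log h2 h1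
    rw [hΛ]; linarith only [hlogN, h3]
  have hZlog : 2 * Real.log P.card + 1 ≤ Λ := by
    have := Real.log_le_log (by linarith only [hPpos]) hPN
    rw [hΛ]; linarith only [this]
  obtain ⟨s, x, Q, g', g, F, hQZ, hs1, hs2, hx8, hxlow, hxup, hZQ, hg', hcell, hR, hsep⟩ :=
    adaptive P (S2 P) rng T l I Λ hP hS hl1 hT1 hZlog hSlog hΛ1 h6 hgd hbig
  have hs1R : (1:ℝ) ≤ s := by exact_mod_cast hs1
  have hs0 : (0:ℝ) < s := by linarith only [hs1R]
  have hQne : Q.Nonempty := by
    rw [← card_pos]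
    rcases Nat.eq_zero_or_pos Q.card with h | h
    · rw [h, mul_zero] at hZQ
      have := hP.card_pos
      omega
    · exact h
  have hPQ : (P.card : ℝ) ≤ l * Q.card := by
    have h1 : P.card ≤ l * Q.card := hZQ.trans (Nat.mul_le_mul_right _ h5)
    exact_mod_cast h1
  have hx1 : 1 ≤ x := by omega
  have hcellnum := cell_num d l s I (by omega) hl1 hs1 P.card Q.card x Λ T
    (L2_cells d Q l s x g' (fun y hy => by convert hcell y hy)) hPQ
    (by positivity) hxup h4 (by linarith only [hlogN]) (by linarith only [htR]) hIl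
  have hκ1 : 1 ≤ κ := by
    have : (1:ℝ) ≤ (5 * (l:ℝ)) ^ (d + 1) := one_le_pow₀ (by linarith only [h4, hlogN])
    rw [hκ]; linarith only [this]
  have hval : ∀ p ∈ P, (s * Q.card : ℝ) / 8 ≤ mass (idx F) vv (hyp p) := by
    intro p hp
    have h1 := value_pairs hR (dist p) T (((card_le_card (image_subset_image hQZ)).trans (hpin p hp)).trans hTt)
      (by
        intro c hc
        rw [mem_image] at hc
        obtain ⟨z, hz, rfl⟩ := hc
        refine ⟨((p, z), true), ?_, ?_⟩
        · unfold S2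
          rw [mem_product, mem_product]
          exact ⟨⟨hp, hQZ hz⟩, mem_univ _⟩
        · intro q _
          exact rng_ball p z q) (Λ / s) (by (clear * - hlogN hs1; positivity)) hsep hx8 hxlow
    rw [← idx_filter hR] at h1
    refine h1.trans (le_of_eq ?_)
    unfold mass
    congr 2
    apply Finset.filter_congr
    intro i _
    unfold vv
    rw [para_sub, dualVec_mem_hyp]
  have hoff : ∀ i ∈ idx F, i.2 ∈ P.offDiag := by
    intro i hi
    rw [mem_idx] at hi
    obtain ⟨X, hX, hi⟩ := hi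
    rw [mem_offDiag] at hi ⊢
    exact ⟨hQZ (hR.sub _ X hX hi.1), hQZ (hR.sub _ X hX hi.2.1), hi.2.2⟩
  have hlineF : ∀ i ∈ idx F, mass (idx F) vv (Submodule.span ℝ {vv i}) ≤ 8 * Q.card * Λ := by
    intro i hi
    have hi' := hoff i hi
    rw [mem_offDiag] at hi'
    have hσ : ((i.2.1, i.2.2), false) ∈ S2 P := by
      unfold S2
      rw [mem_product, mem_product]
      exact ⟨⟨hi'.1, hi'.2.1⟩, mem_univ _⟩
    have h1 := mirror_mass hR hx1
      (fun π => dualVec π ∈ Submodule.span ℝ {dualVec (i.2.1, i.2.2)}) ((i.2.1, i.2.2), false)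
      (Λ / s) (hsep _ hσ) (fun X => mirror_count X i.2.1 i.2.2 hi'.2.2)
    have h2 : 8 * (s:ℝ) * Q.card * (Λ / s) = 8 * Q.card * Λ := by
      (clear * - hs0; field_simp)
    rw [h2] at h1
    exact h1
  have hsel := fun p (hp : p ∈ P) => Vale.Agent.P054M.select2 hR hs1 hs1 hQne P para hyp (fun w => w - 1) κ 1 (d + 1)
    finrank_V.le hκ1 le_rfl
    (by
      intro q _ q' _ h
      exact congrArg Prod.fst h) (fun p hp => hval p hp)
    (by
      intro A hAne hAp τ v' hv'
      obtain ⟨p, _, hAp⟩ := hAp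
      rw [mem_image] at hv'
      obtain ⟨q₀, _, hq₀⟩ := hv'
      have hA1 : 1 ≤ Module.finrank ℝ A := by
        by_contra h0
        have h1 : Module.finrank ℝ A = 0 := by omega
        exact hAne (Submodule.finrank_eq_zero.mp h1)
      have h1 := parab_two_patterns A p hAp hA1 (Q.filter (fun q => A.mkQ (para q) = v')) q₀ (by
        intro y hy
        have h2 := (mem_filter.mp hy).2
        rw [← hq₀, Submodule.mkQ_apply, Submodule.mkQ_apply, Submodule.Quotient.eq] at h2
        exact h2) s (l * s) (g τ) g'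
      have h2 : Module.finrank ℝ A ≤ d + 1 := (Submodule.finrank_le A).trans finrank_V.le
      have h3 := kappa_num (d + 1) (Module.finrank ℝ A - 1) l s (by omega) hs1 hl1
      rw [← hκ] at h3
      refine le_trans ?_ h3
      exact_mod_cast h1) p hp (idx F) (Finset.Subset.refl _)
    (by
      refine le_trans (le_of_eq (mass_sdiff_self _ _ _ _)) ?_
      (clear * - hκ1; positivity))
  choose! jp wp Ap hA1 hA2 hA3 hA4 hA5 hA6 hA7 using hsel
  have hBcard : ((Bl F).card : ℝ) = ∑ τ, ((F τ).card : ℝ) := by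
    rw [card_Bl]; push_cast; rfl
  refine ⟨s, x, Q, F, jp, ⟨hs1, hx8, hΛ1, hκ1, ?_, ?_, ?_, hQZ, hQne, hPQ, ?_, hR.sub, hR.card, ?_, ?_, ?_,
    idx_card_le hR, ?_, hoff, hlineF, hA4, ?_, hA7⟩⟩
  · have h1 : 16 * Λ * ((T:ℝ) + 2) ≤ 48 * l * T := by nlinarith only [h4, htR]
    have h2 : (T:ℝ) = C1 * t1 := by rw [hT]; push_cast; ring
    calc (s:ℝ) ≤ 16 * Λ * ((T:ℝ) + 2) := hs2.le
      _ ≤ 48 * l * T := h1
      _ = 48 * C1 * (l:ℝ) * t1 := by rw [h2]; ring
  · rw [hT] at hxlow
    push_cast at hxlow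
    exact hxlow
  · rw [hT] at hxup
    push_cast at hxup
    exact hxup
  · rw [hT] at hcellnum
    push_cast at hcellnum
    exact hcellnum
  · intro τ X hX X' hX' a ha ha'
    exact hR.uniq τ X hX X' hX' a ha a ha' rfl rfl
  · have h1 := hR.le_sum_const
    have h2 : ∑ τ, ∑ _X ∈ F τ, (x:ℝ) = x * (Bl F).card := by
      rw [hBcard, Finset.mul_sum]
      apply Finset.sum_congr rfl
      intro τ _
      rw [Finset.sum_const, nsmul_eq_mul]; ring
    rw [h2] at h1
    linarith only [h1]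
  · have h1 := hR.sum_const_le
    have h2 : ∑ τ, ∑ _X ∈ F τ, (x:ℝ) = x * (Bl F).card := by
      rw [hBcard, Finset.mul_sum]
      apply Finset.sum_congr rfl
      intro τ _
      rw [Finset.sum_const, nsmul_eq_mul]; ring
    rw [h2] at h1
    exact h1
  · intro σ hσ
    refine (hsep σ hσ).trans (le_of_eq ?_)
    (clear * - hs0; field_simp)
  · intro p hp
    have h1 := hA5 p hp
    have h2 : mass (idx F) vv (Ap p) ≤ mass (idx F) vv (hyp p) :=
      mass_mono (Finset.Subset.refl _) vv (hA1 p hp)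
    refine le_trans (le_of_eq ?_) (h1.trans h2)
    rw [one_pow, one_pow, div_one, mul_one]
    congr 1
    ring

end Vale.Agent.P054I
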