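import Vale.Agent.P054.MathlibUsed
import Vale.Agent.P054.H449.IM.Defs
attribute [-instance] ProperSMul.toContinuousSMul IsTopologicalTorsor.toContinuousSMul IdemSemiring.toCanonicallyOrderedAdd IdemSemiring.toMulLeftMono IdemSemiring.toMulRightMono AddQuantale.instAddLeftMono AddQuantale.instAddRightMono Quantale.instMulLeftMono Quantale.instMulRightMono FiniteDimensional.rclike_to_real IsScalarTower.complexToReal FiniteDimensional.complexToReal

set_option linter.all false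
set_option autoImplicit false

open Finset Vale.Agent.P054K

namespace Vale.Agent.P054I

/-- centres with many pairs of `J` on their dual hyperplane -/
structure DataI {d : ℕ} (P B Q : Finset (EuclideanSpace ℝ (Fin d))) (s t1 l C1 : ℕ)
    (z m W ρ0 FF : ℝ)
    (J : Finset (Fin s × (EuclideanSpace ℝ (Fin d) × EuclideanSpace ℝ (Fin d)))) : Prop where
  hs1 : 1 ≤ s
  hst : (s:ℝ) ≤ (48 * C1 * (l:ℝ)) * t1
  hQP : Q ⊆ P
  hBP : B ⊆ P
  hQne : Q.Nonempty
  hz : 1 ≤ z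
  hJ : (J.card : ℝ) ≤ W
  hW : 20 * (Real.log (W + 3) + 1) ≤ l
  hne : ∀ i ∈ J, vv i ≠ 0
  hm : 0 < m
  hline : ∀ i ∈ J, mass J vv (Submodule.span ℝ {vv i}) ≤ m
  hmass : ∀ p ∈ B, ρ0 ≤ mass J vv (hyp p)
  hρ : FF ^ (d + 2) * m < ρ0
  hfib : ∀ p ∈ B, ∀ Φ ⊆ B, p ∈ Φ → ∀ A' : Submodule ℝ (EuclideanSpace ℝ (Fin d) × ℝ),
        A' = (⨅ p' ∈ Φ, hyp p') → A' ≠ ⊥ →
        (Q.card : ℝ) ≤ 2 * z *
          ((ncos Q para A' : ℝ) * (s:ℝ) ^ (Module.finrank ℝ A' - 1))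

open scoped Classical in
theorem fibreI {d : ℕ} {K' : ℝ} {c' : ℕ} (hK' : 1 ≤ K') (hL1 : ∀ D' ≤ d, L1 D' K' c')
    (P B Q : Finset (EuclideanSpace ℝ (Fin d))) (s t t1 l I C1 : ℕ) (N z m W ρ0 FF : ℝ)
    (J : Finset (Fin s × (EuclideanSpace ℝ (Fin d) × EuclideanSpace ℝ (Fin d))))
    (hdat : DataI P B Q s t1 l C1 z m W ρ0 FF J)
    (ht1 : t1 = t + 1) (hpin : ∀ p ∈ P, (P.image (dist p)).card ≤ t + 1)
    (hN : 1 ≤ N) (h4 : 2 * Real.log N + 1 ≤ l) (h5 : 2 ^ (I + 1) ≤ l)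
    (h6 : 16 * (2 * Real.log N + 1) * ((t1:ℝ) + 2) ≤ (l:ℝ) ^ I) (hC1 : 1 ≤ C1)
    (hPN : (P.card : ℝ) ≤ N) (h8 : (P.card : ℝ) * (t1:ℝ) ≤ N)
    (hflat : ∀ j < d, PinnedBy j t (l * (t1:ℝ) ^ j))
    (w : ℕ) (hw2 : 2 ≤ w) (Φ : Finset (EuclideanSpace ℝ (Fin d))) (hΦG : Φ ⊆ B)
    (A : Submodule ℝ (EuclideanSpace ℝ (Fin d) × ℝ)) (hwA : Module.finrank ℝ A = w)
    (hAΦ : ∀ p ∈ Φ, A ≤ hyp p) :
    (Φ.card : ℝ) * Q.card ≤
      2 * z * ((K' * (l:ℝ) ^ c' * (48 * C1 * (l:ℝ)) ^ d) *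
        ((s:ℝ) ^ (w - 1) * (t1:ℝ) ^ (d - (w - 1)))) := by
  have hz0 : (0:ℝ) ≤ z := by linarith only [hdat.hz]
  rcases Φ.eq_empty_or_nonempty with hΦe | ⟨p₀, hp₀Φ⟩
  · rw [hΦe, card_empty]; simp only [Nat.cast_zero, zero_mul]; (clear * - hK' hz0; positivity)
  have hΦB : Φ ⊆ P := hΦG.trans hdat.hBP
  have htR : (1:ℝ) ≤ t1 := by
    rw [ht1]; push_cast; have : (0:ℝ) ≤ t := by positivity
    linarith only []
  have hl1 : 1 ≤ l := Nat.one_le_two_pow.trans h5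
  have hlR : (1:ℝ) ≤ l := by exact_mod_cast hl1
  have hC1R : (1:ℝ) ≤ C1 := by exact_mod_cast hC1
  have hp₀B := hΦG hp₀Φ
  set A' : Submodule ℝ (EuclideanSpace ℝ (Fin d) × ℝ) := ⨅ p ∈ Φ, hyp p with hA'
  have hAA' : A ≤ A' := by
    rw [hA']
    apply le_iInf₂
    intro p hp
    exact hAΦ p hp
  have hA'hyp : A' ≤ hyp p₀ := by
    rw [hA']; exact iInf₂_le p₀ hp₀Φ
  have hw' : w ≤ Module.finrank ℝ A' := by
    rw [← hwA]; exact Submodule.finrank_mono hAA'
  have hw'D : Module.finrank ℝ A' ≤ d :=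
    (Submodule.finrank_mono hA'hyp).trans (finrank_hyp p₀).le
  have hA'ne : A' ≠ ⊥ := by
    intro h0
    rw [h0, finrank_bot] at hw'
    omega
  have h1 := hdat.hfib p₀ hp₀B Φ hΦG hp₀Φ A' rfl hA'ne
  have hQN : (Q.card : ℝ) ≤ N := le_trans (by exact_mod_cast card_le_card hdat.hQP) hPN
  have hsub := hdat.hQP
  have h2 := L1_quot (hL1 (d + 1 - Module.finrank ℝ A') (by (clear * - hw2 hw' hw'D; omega))) Φ phi Q para t1 l I N A' rfl
    (by rw [finrank_V]; omega) (by omega) hN h4 h5 h6 hQN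
    (le_trans (mul_le_mul_of_nonneg_right (by exact_mod_cast card_le_card hΦB) (by (clear * - htR; positivity))) h8)
    (fun p _ => phi_ne_zero p)
    (fun p hp => ((phi_values Q p).trans (card_le_card (image_subset_image hsub))).trans
      (by rw [ht1]; exact hpin p (hΦB hp)))
    (by
      intro C hAC hC
      rcases (Φ.filter (fun p => C ≤ LinearMap.ker (phi p))).eq_empty_or_nonempty with h0 | ⟨p1, hp1⟩
      · rw [h0, card_empty]; simp only [Nat.cast_zero]; (clear * - htR hl1; positivity)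
      · have h10 := (mem_filter.mp hp1).2
        have h11 : Module.finrank ℝ C ≤ d :=
          (Submodule.finrank_mono h10).trans (finrank_hyp p1).le
        have h12 : 1 ≤ Module.finrank ℝ C := by
          have := Submodule.finrank_mono hAC
          omega
        have h13 := flat_bound (j := d - Module.finrank ℝ C) P
          (Φ.filter (fun p => C ≤ LinearMap.ker (phi p))) ((filter_subset _ _).trans hΦB)
          (fun p hp => hpin p hp) C (fun p hp => (mem_filter.mp hp).2) (by (clear * - h11; omega))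
          (hflat (d - Module.finrank ℝ C) (by (clear * - h11 h12; omega)))
        have h14 : Module.finrank ℝ (EuclideanSpace ℝ (Fin d) × ℝ) - Module.finrank ℝ C - 1
            = d - Module.finrank ℝ C := by rw [finrank_V]; omega
        rw [h14]
        exact h13)
  have h3 := num1 d (w - 1) (Module.finrank ℝ A' - 1) (by (clear * - hw2 hw'; omega)) (by omega) s t1 (48 * C1 * (l:ℝ))
    (by (clear * -; positivity)) htR (by nlinarith only [hlR, hC1R]) hdat.hst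
  have h15 : d + 1 - Module.finrank ℝ A' = d - (Module.finrank ℝ A' - 1) := by (clear * - hw2 hw' hw'D; omega)
  rw [h15] at h2
  calc (Φ.card : ℝ) * Q.card
      ≤ Φ.card * (2 * z * ((ncos Q para A' : ℝ) * (s:ℝ) ^ (Module.finrank ℝ A' - 1))) :=
        mul_le_mul_of_nonneg_left h1 (by (clear * -; positivity))
    _ = 2 * z * (Φ.card * ncos Q para A') * (s:ℝ) ^ (Module.finrank ℝ A' - 1) := by ring
    _ ≤ 2 * z * (K' * (l:ℝ) ^ c' * (t1:ℝ) ^ (d - (Module.finrank ℝ A' - 1))) *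
        (s:ℝ) ^ (Module.finrank ℝ A' - 1) := by
        apply mul_le_mul_of_nonneg_right _ (by (clear * -; positivity))
        exact mul_le_mul_of_nonneg_left h2 (by positivity)
    _ = 2 * z * (K' * (l:ℝ) ^ c' * ((s:ℝ) ^ (Module.finrank ℝ A' - 1) *
        (t1:ℝ) ^ (d - (Module.finrank ℝ A' - 1)))) := by ring
    _ ≤ 2 * z * (K' * (l:ℝ) ^ c' * ((s:ℝ) ^ (w - 1) * (t1:ℝ) ^ (d - (w - 1)) *
        (48 * C1 * (l:ℝ)) ^ d)) := by
        apply mul_le_mul_of_nonneg_left _ (by positivity)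
        exact mul_le_mul_of_nonneg_left h3 (by positivity)
    _ = _ := by ring

/-- numerics of one class -/
theorem numI (d w : ℕ) (hw2 : 2 ≤ w) (hwd : w ≤ d) (s t z u v V E FF r q : ℝ) (hs : 0 < s)
    (ht : 1 ≤ t) (hz : 0 ≤ z) (hu : 0 ≤ u) (hu1 : u ≤ 1) (hv : 0 ≤ v) (hV : 1 ≤ V) (hE : 0 ≤ E)
    (hFF : 0 ≤ FF) (hr0 : 0 ≤ r) (hq0 : 0 ≤ q) (hr : r ≤ V * u * t / s) (hq : q ≤ V * v / s) :
    FF * (r ^ w * q + r ^ (w - 1)) * (2 * z * (E * (s ^ (w - 1) * t ^ (d - (w - 1))))) ≤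
      2 * FF * E * V ^ (d + 1) * (z * (u ^ 2 * v * t ^ (d + 1) / s ^ 2 + u * t ^ d)) := by
  obtain ⟨k, rfl⟩ : ∃ k, w = k + 1 := ⟨w - 1, by omega⟩
  simp only [Nat.add_sub_cancel]
  have hk : 1 ≤ k := by omega
  have ht0 : 0 < t := by linarith only [ht]
  have hV0 : 0 < V := by linarith only [hV]
  -- r^k s^k t^(d-k) ≤ V^d u t^d
  have h1 : r ^ k * (s ^ k * t ^ (d - k)) ≤ V ^ (d - 1) * (u * t ^ d) := by
    have e1 : r ^ k ≤ (V * u * t / s) ^ k := pow_le_pow_left₀ hr0 hr k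
    have e2 : (V * u * t / s) ^ k * (s ^ k * t ^ (d - k)) = V ^ k * (u ^ k * t ^ d) := by
      have e3 : t ^ k * t ^ (d - k) = t ^ d := by rw [← pow_add]; congr 1; omega
      rw [div_pow, mul_pow, mul_pow, ← e3]
      field_simp
    have e4 : u ^ k ≤ u := by
      calc u ^ k ≤ u ^ 1 := pow_le_pow_of_le_one hu hu1 hk
        _ = u := pow_one u
    have e5 : V ^ k ≤ V ^ (d - 1) := pow_le_pow_right₀ hV (by omega)
    calc r ^ k * (s ^ k * t ^ (d - k)) ≤ (V * u * t / s) ^ k * (s ^ k * t ^ (d - k)) :=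
          mul_le_mul_of_nonneg_right e1 (by positivity)
      _ = V ^ k * (u ^ k * t ^ d) := e2
      _ ≤ V ^ (d - 1) * (u * t ^ d) := by
          apply mul_le_mul e5 _ (by positivity) (by positivity)
          exact mul_le_mul_of_nonneg_right e4 (by positivity)
  have h2 : r * q ≤ V ^ 2 * (u * v * t / s ^ 2) := by
    calc r * q ≤ (V * u * t / s) * (V * v / s) := mul_le_mul hr hq hq0 (by positivity)
      _ = V ^ 2 * (u * v * t / s ^ 2) := by field_simp
  have h3 : (r ^ (k + 1) * q) * (s ^ k * t ^ (d - k)) ≤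
      V ^ (d + 1) * (u ^ 2 * v * t ^ (d + 1) / s ^ 2) := by
    have e1 : (r ^ (k + 1) * q) * (s ^ k * t ^ (d - k)) = (r ^ k * (s ^ k * t ^ (d - k))) * (r * q) := by
      rw [pow_succ]; ring
    rw [e1]
    calc (r ^ k * (s ^ k * t ^ (d - k))) * (r * q)
        ≤ (V ^ (d - 1) * (u * t ^ d)) * (V ^ 2 * (u * v * t / s ^ 2)) :=
          mul_le_mul h1 h2 (by positivity) (by positivity)
      _ = (V ^ (d - 1) * V ^ 2) * (u ^ 2 * v * (t ^ d * t) / s ^ 2) := by ring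
      _ = V ^ (d + 1) * (u ^ 2 * v * t ^ (d + 1) / s ^ 2) := by
          rw [← pow_add, ← pow_succ]
          congr 2
          omega
  have h4 : r ^ k * (s ^ k * t ^ (d - k)) ≤ V ^ (d + 1) * (u * t ^ d) := by
    refine h1.trans ?_
    apply mul_le_mul_of_nonneg_right _ (by positivity)
    exact pow_le_pow_right₀ hV (by omega)
  calc FF * (r ^ (k + 1) * q + r ^ k) * (2 * z * (E * (s ^ k * t ^ (d - k))))
      = 2 * FF * E * z * ((r ^ (k + 1) * q) * (s ^ k * t ^ (d - k)) + r ^ k * (s ^ k * t ^ (d - k))) := by ring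
    _ ≤ 2 * FF * E * z * (V ^ (d + 1) * (u ^ 2 * v * t ^ (d + 1) / s ^ 2) + V ^ (d + 1) * (u * t ^ d)) :=
        mul_le_mul_of_nonneg_left (add_le_add h3 h4) (by positivity)
    _ = _ := by ring

open scoped Classical in
/-- the improved count -/
theorem caseI (d : ℕ) (hd : 2 ≤ d) {K0 : ℝ} {c0 : ℕ} (hK0 : 1 ≤ K0)
    (hET : ∀ w, 2 ≤ w → w ≤ d → ETProp w K0 c0) {K' : ℝ} {c' : ℕ} (hK' : 1 ≤ K')
    (hL1 : ∀ D' ≤ d, L1 D' K' c')
    (P B Q : Finset (EuclideanSpace ℝ (Fin d))) (s t t1 l I C1 : ℕ) (N z m W ρ0 FF : ℝ)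
    (J : Finset (Fin s × (EuclideanSpace ℝ (Fin d) × EuclideanSpace ℝ (Fin d))))
    (hdat : DataI P B Q s t1 l C1 z m W ρ0 FF J)
    (ht1 : t1 = t + 1) (hpin : ∀ p ∈ P, (P.image (dist p)).card ≤ t + 1)
    (hN : 1 ≤ N) (h4 : 2 * Real.log N + 1 ≤ l) (h5 : 2 ^ (I + 1) ≤ l)
    (h6 : 16 * (2 * Real.log N + 1) * ((t1:ℝ) + 2) ≤ (l:ℝ) ^ I) (hC1 : 1 ≤ C1)
    (hPN : (P.card : ℝ) ≤ N) (h8 : (P.card : ℝ) * (t1:ℝ) ≤ N)
    (hflat : ∀ j < d, PinnedBy j t (l * (t1:ℝ) ^ j)) (hFF : FF = K0 * (l:ℝ) ^ c0)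
    (u v V : ℝ) (hu : 0 ≤ u) (hu1 : u ≤ 1) (hv : 0 ≤ v) (hV : 1 ≤ V)
    (hWρ : FF ^ (d + 1) * W / ρ0 ≤ V * u * t1 / s) (hmρ : FF ^ (d + 1) * m / ρ0 ≤ V * v / s) :
    (B.card : ℝ) * Q.card ≤ d * (2 * FF * (K' * (l:ℝ) ^ c' * (48 * C1 * (l:ℝ)) ^ d) * V ^ (d + 1) *
      (z * (u ^ 2 * v * (t1:ℝ) ^ (d + 1) / (s:ℝ) ^ 2 + u * (t1:ℝ) ^ d))) := by
  have hl1 : 1 ≤ l := Nat.one_le_two_pow.trans h5
  have hlR : (1:ℝ) ≤ l := by exact_mod_cast hl1
  have htR : (1:ℝ) ≤ t1 := by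
    rw [ht1]; push_cast; have : (0:ℝ) ≤ t := by (clear * -; positivity)
    linarith only []
  have hFF1 : 1 ≤ FF := by
    rw [hFF]; exact one_le_mul_of_one_le_of_one_le hK0 (one_le_pow₀ hlR)
  have hFF0 : 0 < FF := by linarith only [hFF1]
  have hs1R : (1:ℝ) ≤ s := by exact_mod_cast hdat.hs1
  have hs0 : (0:ℝ) < s := by linarith only [hs1R]
  have hm0 := hdat.hm
  have hz1 := hdat.hz
  have hρ0 : 0 < ρ0 := lt_trans (by positivity) hdat.hρ
  have hW0 : 0 ≤ W := le_trans (Nat.cast_nonneg _) hdat.hJ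
  have hC1R : (1:ℝ) ≤ C1 := by exact_mod_cast hC1
  -- thresholds
  set Θ : ℕ → ℝ := fun w => ρ0 * (FF ^ w / FF ^ (d + 1)) with hΘ
  have hΘpos : ∀ w, 0 < Θ w := fun w => by simp only [hΘ]; (clear * - hρ0 hFF0; positivity)
  have hΘsucc : ∀ w, FF * Θ w = Θ (w + 1) := by
    intro w; simp only [hΘ]; rw [pow_succ]; ring
  have hΘmono : ∀ w w', w ≤ w' → Θ w ≤ Θ w' := by
    intro w w' hww
    simp only [hΘ]
    apply mul_le_mul_of_nonneg_left _ hρ0.le
    apply div_le_div_of_nonneg_right _ (by positivity)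
    exact pow_le_pow_right₀ hFF1 hww
  have hsel : ∀ p ∈ B, ∃ (w : ℕ) (A : Submodule ℝ (EuclideanSpace ℝ (Fin d) × ℝ)), A ≤ hyp p ∧
      Module.finrank ℝ A = w ∧ 2 ≤ w ∧ w ≤ d ∧ Θ w ≤ mass J vv A ∧
      ∀ B' : Submodule ℝ (EuclideanSpace ℝ (Fin d) × ℝ), B' < A →
        FF * mass J vv B' ≤ mass J vv A := by
    intro p hp
    obtain ⟨w, _, A, hA, hAw, hAm, hAmin⟩ := exists_minimal_rich J vv (hyp p)
      (Module.finrank ℝ (hyp p)) rfl Θ (by
        refine le_trans ?_ (hdat.hmass p hp)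
        have h1 : Module.finrank ℝ (hyp p) ≤ d + 1 := (finrank_hyp p).le.trans (by omega)
        refine (hΘmono _ _ h1).trans ?_
        simp only [hΘ]
        rw [div_self (by positivity), mul_one])
    have hwd : w ≤ d := by
      rw [← hAw]
      exact (Submodule.finrank_mono hA).trans (finrank_hyp p).le
    refine ⟨w, A, hA, hAw, ?_, hwd, hAm, ?_⟩
    · by_contra hcon
      have hw1 : w ≤ 1 := by omega
      have h1 : mass J vv A ≤ m := by
        rcases Nat.lt_or_ge w 1 with h0 | h0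
        · have h2 : mass J vv A = 0 := mass_of_finrank_zero J vv hdat.hne A (by omega)
          rw [h2]; exact hm0.le
        · exact mass_of_finrank_one J vv m hm0.le hdat.hne hdat.hline A (by omega)
      have h2 : m < Θ w := by
        refine lt_of_lt_of_le ?_ (hΘmono 0 w (by omega))
        simp only [hΘ]
        rw [pow_zero, mul_one_div, lt_div_iff₀ (by positivity)]
        refine lt_of_le_of_lt ?_ hdat.hρ
        rw [mul_comm m]
        apply mul_le_mul_of_nonneg_right _ hm0.le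
        exact pow_le_pow_right₀ hFF1 (by omega)
      linarith only [h1, h2, hAm]
    · intro B' hB'
      obtain ⟨h1, h2⟩ := hAmin B' hB'
      calc FF * mass J vv B' ≤ FF * Θ (Module.finrank ℝ B') :=
            mul_le_mul_of_nonneg_left h2.le hFF0.le
        _ = Θ (Module.finrank ℝ B' + 1) := hΘsucc _
        _ ≤ Θ w := hΘmono _ _ h1
        _ ≤ mass J vv A := hAm
  choose! wp Ap hA1 hA2 hA3 hA4 hA5 hA6 using hsel
  set E : ℝ := K' * (l:ℝ) ^ c' * (48 * C1 * (l:ℝ)) ^ d with hE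
  have hE0 : 0 ≤ E := by rw [hE]; (clear * - hK' hC1R; positivity)
  set T : ℝ := 2 * FF * E * V ^ (d + 1) *
      (z * (u ^ 2 * v * (t1:ℝ) ^ (d + 1) / (s:ℝ) ^ 2 + u * (t1:ℝ) ^ d)) with hT
  have hT0 : 0 ≤ T := by
    rw [hT]
    have hz0 : 0 ≤ z := by linarith only [hz1]
    have hV0 : 0 ≤ V := by linarith only [hV]
    (clear * - hE0 hFF0 htR hz0 hV0 hu hv hs0; positivity)
  have hclass : ∀ w, 2 ≤ w → w ≤ d →
      ((B.filter (fun p => wp p = w)).card : ℝ) * Q.card ≤ T := by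
    intro w hw2 hwd
    set Bc := B.filter (fun p => wp p = w) with hBc
    have hBc' : ∀ p ∈ Bc, p ∈ B ∧ wp p = w := fun p hp => mem_filter.mp hp
    -- number of rich subspaces
    have hΘw := hΘpos w
    have hZ := hET w hw2 hwd (EuclideanSpace ℝ (Fin d) × ℝ)
      (Fin s × (EuclideanSpace ℝ (Fin d) × EuclideanSpace ℝ (Fin d))) J vv m
      W (Θ w) l (Bc.image Ap) hdat.hne hdat.hline hm0 hdat.hJ hdat.hW
      (by
        rw [← hFF]
        refine le_trans ?_ (hΘmono 0 w (by omega))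
        simp only [hΘ]
        rw [pow_zero, mul_one_div, le_div_iff₀ (by positivity)]
        refine le_trans (le_of_eq ?_) hdat.hρ.le
        rw [pow_succ FF (d + 1)]; ring)
      (by
        intro A hA
        rw [mem_image] at hA
        obtain ⟨p₀, hp₀, hp₀A⟩ := hA
        obtain ⟨hp₀B, hp₀w⟩ := hBc' p₀ hp₀
        refine ⟨by rw [← hp₀A, hA2 p₀ hp₀B, hp₀w], ?_, ?_⟩
        · have h2 := hA5 p₀ hp₀B
          rw [hp₀w, hp₀A] at h2
          exact h2
        · intro B' hB'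
          have h2 := hA6 p₀ hp₀B B' (by rw [hp₀A]; exact hB')
          rw [hp₀A, hFF] at h2
          exact h2)
    rw [← hFF] at hZ
    -- ratios
    set r : ℝ := FF ^ (d + 1) * W / ρ0 with hr
    set q : ℝ := FF ^ (d + 1) * m / ρ0 with hq
    have hr0 : 0 ≤ r := by rw [hr]; (clear * - hFF0 hW0 hρ0; positivity)
    have hq0 : 0 ≤ q := by rw [hq]; (clear * - hFF0 hm0 hρ0; positivity)
    have hΘlow : ρ0 / FF ^ (d + 1) ≤ Θ w := by
      refine le_trans (le_of_eq ?_) (hΘmono 0 w (by omega))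
      simp only [hΘ]
      rw [pow_zero, mul_one_div]
    have hWr : W / Θ w ≤ r := by
      rw [div_le_iff₀ hΘw]
      calc W = r * (ρ0 / FF ^ (d + 1)) := by rw [hr]; (clear * - hFF0 hρ0; field_simp)
        _ ≤ r * Θ w := mul_le_mul_of_nonneg_left hΘlow hr0
    have hmq : m / Θ w ≤ q := by
      rw [div_le_iff₀ hΘw]
      calc m = q * (ρ0 / FF ^ (d + 1)) := by rw [hq]; (clear * - hFF0 hρ0; field_simp)
        _ ≤ q * Θ w := mul_le_mul_of_nonneg_left hΘlow hq0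
    have hZ2 : ((Bc.image Ap).card : ℝ) ≤ FF * (r ^ w * q + r ^ (w - 1)) := by
      refine hZ.trans ?_
      apply mul_le_mul_of_nonneg_left _ hFF0.le
      have e1 : W ^ w * m / (Θ w) ^ (w + 1) = (W / Θ w) ^ w * (m / Θ w) := by
        rw [div_pow, pow_succ]; (clear * - hΘw; field_simp)
      have e2 : W ^ (w - 1) / (Θ w) ^ (w - 1) = (W / Θ w) ^ (w - 1) := by rw [div_pow]
      rw [e1, e2]
      apply add_le_add
      · apply mul_le_mul _ hmq (by (clear * - hm0 hΘw; positivity)) (by (clear * - hr0; positivity))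
        exact pow_le_pow_left₀ (by (clear * - hW0 hΘw; positivity)) hWr _
      · exact pow_le_pow_left₀ (by (clear * - hW0 hΘw; positivity)) hWr _
    -- fibres
    have hfib : ∀ A ∈ Bc.image Ap, ((Bc.filter (fun p => Ap p = A)).card : ℝ) * Q.card ≤
        2 * z * (E * ((s:ℝ) ^ (w - 1) * (t1:ℝ) ^ (d - (w - 1)))) := by
      intro A hA
      rw [mem_image] at hA
      obtain ⟨p₀, hp₀, hp₀A⟩ := hA
      obtain ⟨hp₀B, hp₀w⟩ := hBc' p₀ hp₀
      exact fibreI hK' hL1 P B Q s t t1 l I C1 N z m W ρ0 FF J hdat ht1 hpin hN h4 h5 h6 hC1 hPN h8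
        hflat w hw2 (Bc.filter (fun p => Ap p = A)) ((filter_subset _ _).trans (filter_subset _ _)) A
        (by rw [← hp₀A, hA2 p₀ hp₀B, hp₀w])
        (by
          intro p hp
          rw [mem_filter] at hp
          rw [← hp.2]
          exact hA1 p (hBc' p hp.1).1)
    have hcardeq : (Bc.card : ℝ) = ∑ A ∈ Bc.image Ap,
        ((Bc.filter (fun p => Ap p = A)).card : ℝ) := by
      have h3 : Bc.card = ∑ A ∈ Bc.image Ap, (Bc.filter (fun p => Ap p = A)).card :=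
        Finset.card_eq_sum_card_fiberwise (fun p hp => mem_image_of_mem Ap hp)
      rw [h3]; push_cast; rfl
    calc (Bc.card : ℝ) * Q.card
        = ∑ A ∈ Bc.image Ap, ((Bc.filter (fun p => Ap p = A)).card : ℝ) * Q.card := by
          rw [hcardeq, Finset.sum_mul]
      _ ≤ ∑ _A ∈ Bc.image Ap, 2 * z * (E * ((s:ℝ) ^ (w - 1) * (t1:ℝ) ^ (d - (w - 1)))) :=
          Finset.sum_le_sum (fun A hA => hfib A hA)
      _ = (Bc.image Ap).card * (2 * z * (E * ((s:ℝ) ^ (w - 1) * (t1:ℝ) ^ (d - (w - 1))))) := by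
          rw [Finset.sum_const, nsmul_eq_mul]
      _ ≤ (FF * (r ^ w * q + r ^ (w - 1))) *
          (2 * z * (E * ((s:ℝ) ^ (w - 1) * (t1:ℝ) ^ (d - (w - 1))))) :=
          mul_le_mul_of_nonneg_right hZ2 (by
            have hz0 : 0 ≤ z := by linarith only [hz1]
            (clear * - hE0 htR hs1R hz0; positivity))
      _ ≤ T := numI d w hw2 hwd s t1 z u v V E FF r q hs0 htR (by linarith only [hz1]) hu hu1 hv hV hE0
          hFF0.le hr0 hq0 hWρ hmρ
  have hpart : (B.card : ℝ) = ∑ w ∈ Icc 2 d, ((B.filter (fun p => wp p = w)).card : ℝ) := by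
    have h3 : B.card = ∑ w ∈ Icc 2 d, (B.filter (fun p => wp p = w)).card := by
      apply Finset.card_eq_sum_card_fiberwise
      intro p hp
      rw [mem_coe, mem_Icc]
      exact ⟨hA3 p hp, hA4 p hp⟩
    rw [h3]
    push_cast
    rfl
  rw [hpart, Finset.sum_mul]
  calc ∑ w ∈ Icc 2 d, ((B.filter (fun p => wp p = w)).card : ℝ) * Q.card
      ≤ ∑ _w ∈ Icc 2 d, T := by
        apply Finset.sum_le_sum
        intro w hw
        rw [mem_Icc] at hw
        exact hclass w hw.1 hw.2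
    _ = ((d - 1 : ℕ) : ℝ) * T := by
        rw [Finset.sum_const, Nat.card_Icc, nsmul_eq_mul]
        have : d + 1 - 2 = d - 1 := by (clear * - hd; omega)
        rw [this]
    _ ≤ d * T := by
        apply mul_le_mul_of_nonneg_right _ hT0
        exact_mod_cast Nat.sub_le d 1

end Vale.Agent.P054I
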