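import Vale.Agent.P054.MathlibUsed
import Vale.Agent.P054.H449.IM.Defs2
attribute [-instance] ProperSMul.toContinuousSMul IsTopologicalTorsor.toContinuousSMul IdemSemiring.toCanonicallyOrderedAdd IdemSemiring.toMulLeftMono IdemSemiring.toMulRightMono AddQuantale.instAddLeftMono AddQuantale.instAddRightMono Quantale.instMulLeftMono Quantale.instMulRightMono FiniteDimensional.rclike_to_real IsScalarTower.complexToReal FiniteDimensional.complexToReal

set_option linter.all false
set_option autoImplicit false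

open Finset Vale.Agent.P054K

namespace Vale.Agent.P054I

open scoped Classical in
/-- one representative for every line with at least `μ` pairs -/
theorem exists_rep {d s : ℕ}
    (J : Finset (Fin s × (EuclideanSpace ℝ (Fin d) × EuclideanSpace ℝ (Fin d))))
    (hne : ∀ i ∈ J, vv i ≠ 0) (μ : ℝ) (hμ : 0 < μ) :
    ∃ R ⊆ J, (R.card : ℝ) * μ ≤ J.card ∧
      (∀ i ∈ R, mass R vv (Submodule.span ℝ {vv i}) ≤ 1) ∧
      ∀ p, ((rl J μ p).card : ℝ) ≤ mass R vv (hyp p) := by
  set Jh := J.filter (fun i => μ ≤ mass J vv (Submodule.span ℝ {vv i})) with hJh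
  set LL := Jh.image (fun i => Submodule.span ℝ {vv i}) with hLL
  have hch : ∀ L ∈ LL, ∃ i, i ∈ Jh ∧ Submodule.span ℝ {vv i} = L := by
    intro L hL
    rw [hLL, mem_image] at hL
    obtain ⟨i, hi, hiL⟩ := hL
    exact ⟨i, hi, hiL⟩
  rcases J.eq_empty_or_nonempty with hJe | ⟨i0, hi0⟩
  · refine ⟨∅, empty_subset _, ?_, ?_, ?_⟩
    · rw [card_empty]; simp only [Nat.cast_zero, zero_mul]; exact Nat.cast_nonneg _
    · intro i hi; exact absurd hi (notMem_empty i)
    · intro p
      have : rl J μ p = ∅ := by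
        unfold rl
        rw [hJe, filter_empty, image_empty]
      rw [this, card_empty]
      simp only [Nat.cast_zero]
      exact mass_nonneg _ _ _
  have hch' : ∃ r : Submodule ℝ (EuclideanSpace ℝ (Fin d) × ℝ) →
      Fin s × (EuclideanSpace ℝ (Fin d) × EuclideanSpace ℝ (Fin d)),
      ∀ L ∈ LL, r L ∈ Jh ∧ Submodule.span ℝ {vv (r L)} = L := by
    have : ∀ L, ∃ i, L ∈ LL → (i ∈ Jh ∧ Submodule.span ℝ {vv i} = L) := by
      intro L
      by_cases hL : L ∈ LL
      · obtain ⟨i, hi⟩ := hch L hL
        exact ⟨i, fun _ => hi⟩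
      · exact ⟨i0, fun h => absurd h hL⟩
    choose r hr using this
    exact ⟨r, hr⟩
  obtain ⟨r, hr⟩ := hch'
  have hJhJ : Jh ⊆ J := filter_subset _ _
  -- membership on a line
  have hline : ∀ i ∈ J, ∀ i' ∈ J, vv i' ∈ Submodule.span ℝ {vv i} →
      Submodule.span ℝ {vv i'} = Submodule.span ℝ {vv i} := by
    intro i hi i' hi' h
    obtain ⟨c, hc⟩ := Submodule.mem_span_singleton.mp h
    have hc0 : c ≠ 0 := by
      rintro rfl
      rw [zero_smul] at hc
      exact hne i' hi' hc.symm
    rw [← hc]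
    exact Submodule.span_singleton_smul_eq (IsUnit.mk0 c hc0) _
  refine ⟨LL.image r, ?_, ?_, ?_, ?_⟩
  · intro i hi
    rw [mem_image] at hi
    obtain ⟨L, hL, rfl⟩ := hi
    exact hJhJ (hr L hL).1
  · -- disjointness of lines
    have h1 : ((LL.image r).card : ℝ) ≤ LL.card := by exact_mod_cast card_image_le
    have h2 : (LL.card : ℝ) * μ ≤ J.card := by
      have h3 : ∑ L ∈ LL, ((J.filter (fun i => Submodule.span ℝ {vv i} = L)).card : ℝ) ≤ J.card := by
        have h4 : ∑ L ∈ LL, (J.filter (fun i => Submodule.span ℝ {vv i} = L)).card ≤ J.card := by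
          rw [← card_biUnion]
          · apply card_le_card
            intro i hi
            rw [mem_biUnion] at hi
            obtain ⟨L, _, hi⟩ := hi
            exact (mem_filter.mp hi).1
          · intro L _ L' _ hLL'
            change Disjoint (J.filter (fun i => Submodule.span ℝ {vv i} = L))
              (J.filter (fun i => Submodule.span ℝ {vv i} = L'))
            rw [Finset.disjoint_left]
            intro i hi hi'
            rw [mem_filter] at hi hi'
            exact hLL' (hi.2.symm.trans hi'.2)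
        exact_mod_cast h4
      refine le_trans ?_ h3
      calc (LL.card : ℝ) * μ = ∑ _L ∈ LL, μ := by rw [Finset.sum_const, nsmul_eq_mul]
        _ ≤ ∑ L ∈ LL, ((J.filter (fun i => Submodule.span ℝ {vv i} = L)).card : ℝ) := by
            apply Finset.sum_le_sum
            intro L hL
            obtain ⟨h5, h6⟩ := hr L hL
            rw [hJh, mem_filter] at h5
            refine h5.2.trans ?_
            unfold mass
            have h7 : J.filter (fun i => vv i ∈ Submodule.span ℝ {vv (r L)}) ⊆
                J.filter (fun i => Submodule.span ℝ {vv i} = L) := by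
              intro i hi
              rw [mem_filter] at hi ⊢
              exact ⟨hi.1, (hline (r L) h5.1 i hi.1 hi.2).trans h6⟩
            exact_mod_cast card_le_card h7
    calc ((LL.image r).card : ℝ) * μ ≤ LL.card * μ := mul_le_mul_of_nonneg_right h1 hμ.le
      _ ≤ J.card := h2
  · intro i hi
    rw [mem_image] at hi
    obtain ⟨L, hL, rfl⟩ := hi
    unfold mass
    have h1 : ((LL.image r).filter (fun i => vv i ∈ Submodule.span ℝ {vv (r L)})) ⊆ {r L} := by
      intro i hi
      rw [mem_filter, mem_image] at hi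
      obtain ⟨⟨L', hL', rfl⟩, h2⟩ := hi
      have h3 := hline (r L) (hJhJ (hr L hL).1) (r L') (hJhJ (hr L' hL').1) h2
      rw [(hr L hL).2, (hr L' hL').2] at h3
      rw [h3, mem_singleton]
    have h2 := card_le_card h1
    rw [card_singleton] at h2
    exact_mod_cast h2
  · intro p
    unfold mass
    have h1 : ((rl J μ p).image r) ⊆ (LL.image r).filter (fun i => vv i ∈ hyp p) := by
      intro i hi
      rw [mem_image] at hi
      obtain ⟨L, hL, rfl⟩ := hi
      unfold rl at hL
      rw [mem_image] at hL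
      obtain ⟨i', hi', rfl⟩ := hL
      rw [mem_filter] at hi'
      have hL : Submodule.span ℝ {vv i'} ∈ LL := by
        rw [hLL, mem_image]
        exact ⟨i', by rw [hJh, mem_filter]; exact ⟨hi'.1, hi'.2.2⟩, rfl⟩
      rw [mem_filter]
      refine ⟨mem_image_of_mem r hL, ?_⟩
      have h2 := (hr _ hL).2
      have h3 : vv (r (Submodule.span ℝ {vv i'})) ∈ Submodule.span ℝ {vv i'} :=
        h2.le (Submodule.mem_span_singleton_self _)
      have h4 : Submodule.span ℝ {vv i'} ≤ hyp p := by
        rw [Submodule.span_singleton_le_iff_mem]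
        exact hi'.2.1
      exact h4 h3
    have h2 : ((rl J μ p).image r).card = (rl J μ p).card := by
      apply Finset.card_image_of_injOn
      intro L hL L' hL' hLL'
      have hsub : ∀ L ∈ rl J μ p, L ∈ LL := by
        intro L hL
        unfold rl at hL
        rw [mem_image] at hL
        obtain ⟨i', hi', rfl⟩ := hL
        rw [mem_filter] at hi'
        rw [hLL, mem_image]
        exact ⟨i', by rw [hJh, mem_filter]; exact ⟨hi'.1, hi'.2.2⟩, rfl⟩
      have h3 := (hr L (hsub L hL)).2
      have h4 := (hr L' (hsub L' hL')).2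
      rw [← h3, ← h4, hLL']
    rw [← h2]
    exact_mod_cast card_le_card h1

open scoped Classical in
/-- the number of pairs of level `a` -/
theorem card_Jl {d : ℕ} (hL : LightProp d) (P Q : Finset (EuclideanSpace ℝ (Fin d)))
    (s x l t1 I C1 : ℕ) (Λ κ : ℝ)
    (F : Fin s → Finset (Finset (EuclideanSpace ℝ (Fin d)))) (jp : EuclideanSpace ℝ (Fin d) → ℕ)
    (hA : DataA P Q s x l t1 I C1 Λ κ F jp) (a : ℕ) :
    ((Jl F a).card : ℝ) ≤ 8 * 5 ^ d * 2 ^ a * (s * Q.card) := by
  have h1 : (Jl F a) ⊆ (Bl F).biUnion (fun B => (B.2.offDiag.filter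
      (fun π => ¬ Heavy B.2 (2 ^ (a + 1)) π)).image (fun π => (B.1, π))) := by
    intro i hi
    unfold Jl at hi
    rw [mem_filter] at hi
    obtain ⟨X, hX, hXi, _, hh⟩ := hi.2
    rw [mem_biUnion]
    refine ⟨⟨i.1, X⟩, ?_, ?_⟩
    · unfold Bl
      rw [mem_sigma]
      exact ⟨mem_univ _, hX⟩
    · rw [mem_image]
      refine ⟨i.2, ?_, rfl⟩
      rw [mem_filter]
      exact ⟨hXi, hh⟩
  have h2 : (Jl F a).card ≤ ∑ B ∈ Bl F, 4 * 5 ^ d * 2 ^ (a + 1) * x := by
    refine (card_le_card h1).trans (card_biUnion_le.trans ?_)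
    apply Finset.sum_le_sum
    intro B hB
    unfold Bl at hB
    rw [mem_sigma] at hB
    refine card_image_le.trans ?_
    have h3 := hL B.2 (2 ^ (a + 1)) Nat.one_le_two_pow
    rw [hA.hFcard B.1 B.2 hB.2] at h3
    exact h3
  rw [Finset.sum_const, smul_eq_mul] at h2
  have h3 : ((Jl F a).card : ℝ) ≤ (Bl F).card * (4 * 5 ^ d * 2 ^ (a + 1) * x) := by
    exact_mod_cast h2
  calc ((Jl F a).card : ℝ) ≤ (Bl F).card * (4 * 5 ^ d * 2 ^ (a + 1) * x) := h3
    _ = 8 * 5 ^ d * 2 ^ a * (x * (Bl F).card) := by rw [pow_succ]; ring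
    _ ≤ 8 * 5 ^ d * 2 ^ a * (s * Q.card) :=
        mul_le_mul_of_nonneg_left hA.hBup (by positivity)

open scoped Classical in
/-- level `a` is empty if `2 ^ a` exceeds the size of the blocks -/
theorem Jl_empty {d : ℕ} (P Q : Finset (EuclideanSpace ℝ (Fin d)))
    (s x l t1 I C1 : ℕ) (Λ κ : ℝ)
    (F : Fin s → Finset (Finset (EuclideanSpace ℝ (Fin d)))) (jp : EuclideanSpace ℝ (Fin d) → ℕ)
    (hA : DataA P Q s x l t1 I C1 Λ κ F jp) (a : ℕ) (ha : x < 2 ^ a) : Jl F a = ∅ := by
  rw [Finset.eq_empty_iff_forall_notMem]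
  intro i hi
  unfold Jl at hi
  rw [mem_filter] at hi
  obtain ⟨X, hX, _, hh, _⟩ := hi.2
  have h1 := hh.1
  have h2 := hA.hFcard i.1 X hX
  have h3 : (X.filter (fun z => dist z i.2.1 < dist z i.2.2)).card ≤ X.card := card_filter_le _ _
  omega

end Vale.Agent.P054I
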