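import Vale.Agent.P054.MathlibUsed
import Vale.Agent.P054.H449.IM.IC
import Vale.Agent.P054.H449.IM.Rep
attribute [-instance] ProperSMul.toContinuousSMul IsTopologicalTorsor.toContinuousSMul IdemSemiring.toCanonicallyOrderedAdd IdemSemiring.toMulLeftMono IdemSemiring.toMulRightMono AddQuantale.instAddLeftMono AddQuantale.instAddRightMono Quantale.instMulLeftMono Quantale.instMulRightMono FiniteDimensional.rclike_to_real IsScalarTower.complexToReal FiniteDimensional.complexToReal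

set_option linter.all false
set_option autoImplicit false

open Finset Vale.Agent.P054K

namespace Vale.Agent.P054I

/-- everything that is fixed during the count -/
structure Env {d : ℕ} (P Q : Finset (EuclideanSpace ℝ (Fin d))) (s x t t1 l I C1 : ℕ)
    (N κ FF K0 K' η : ℝ) (c0 c' : ℕ)
    (F : Fin s → Finset (Finset (EuclideanSpace ℝ (Fin d))))
    (jp : EuclideanSpace ℝ (Fin d) → ℕ) : Prop where
  hd : 2 ≤ d
  hK0 : 1 ≤ K0
  hET : ∀ w, 2 ≤ w → w ≤ d → ETProp w K0 c0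
  hK' : 1 ≤ K'
  hL1 : ∀ D' ≤ d, L1 D' K' c'
  hLP : LightProp d
  hA : DataA P Q s x l t1 I C1 (2 * Real.log N + 1) κ F jp
  ht1 : t1 = t + 1
  hpin : open scoped Classical in ∀ p ∈ P, (P.image (dist p)).card ≤ t + 1
  hN : 1 ≤ N
  h4 : 2 * Real.log N + 1 ≤ l
  h5 : 2 ^ (I + 1) ≤ l
  h6 : 16 * (2 * Real.log N + 1) * ((t1:ℝ) + 2) ≤ (l:ℝ) ^ I
  hC1 : 1 ≤ C1
  hPN : (P.card : ℝ) ≤ N
  h8 : (P.card : ℝ) * (t1:ℝ) ≤ N
  hflat : ∀ j < d, PinnedBy j t (l * (t1:ℝ) ^ j)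
  hFF : FF = K0 * (l:ℝ) ^ c0
  hη1 : 1 ≤ η
  hηQ : η ≤ Q.card
  hsbig : FF ^ (d + 2) * (2 ^ 29 * κ * l * (2 * Real.log N + 1)) < s
  hlog : 20 * (Real.log (8 * 5 ^ d * (s * Q.card * x) + 3) + 1) ≤ l

/-- the common factor `V` -/
noncomputable def VV (d l I C1 : ℕ) (FF κ Λ : ℝ) : ℝ :=
  FF ^ (d + 1) * (2 ^ 29 * 5 ^ d * κ * l * 2 ^ (I + 14) * Λ * C1)

/-- the common factor of the counts -/
noncomputable def TT (d l I C1 c' : ℕ) (FF κ Λ K' : ℝ) : ℝ :=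
  d * (2 * FF * (K' * (l:ℝ) ^ c' * (48 * C1 * (l:ℝ)) ^ d) * VV d l I C1 FF κ Λ ^ (d + 1))

section

variable {d : ℕ} {P Q : Finset (EuclideanSpace ℝ (Fin d))} {s x t t1 l I C1 : ℕ}
    {N κ FF K0 K' η : ℝ} {c0 c' : ℕ}
    {F : Fin s → Finset (Finset (EuclideanSpace ℝ (Fin d)))}
    {jp : EuclideanSpace ℝ (Fin d) → ℕ}

theorem Env.Λ1 (h : Env P Q s x t t1 l I C1 N κ FF K0 K' η c0 c' F jp) :
    1 ≤ 2 * Real.log N + 1 := h.hA.hΛ1

theorem Env.l1 (h : Env P Q s x t t1 l I C1 N κ FF K0 K' η c0 c' F jp) : (1:ℝ) ≤ l := by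
  have : 1 ≤ l := Nat.one_le_two_pow.trans h.h5
  exact_mod_cast this

theorem Env.FF1 (h : Env P Q s x t t1 l I C1 N κ FF K0 K' η c0 c' F jp) : 1 ≤ FF := by
  rw [h.hFF]; exact one_le_mul_of_one_le_of_one_le h.hK0 (one_le_pow₀ h.l1)

theorem Env.s1 (h : Env P Q s x t t1 l I C1 N κ FF K0 K' η c0 c' F jp) : (1:ℝ) ≤ s := by
  exact_mod_cast h.hA.hs1

theorem Env.x1 (h : Env P Q s x t t1 l I C1 N κ FF K0 K' η c0 c' F jp) : (1:ℝ) ≤ x := by
  have := h.hA.hx8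
  exact_mod_cast (show 1 ≤ x by omega)

theorem Env.q1 (h : Env P Q s x t t1 l I C1 N κ FF K0 K' η c0 c' F jp) : (1:ℝ) ≤ Q.card := by
  exact_mod_cast h.hA.hQne.card_pos

theorem Env.C1R (h : Env P Q s x t t1 l I C1 N κ FF K0 K' η c0 c' F jp) : (1:ℝ) ≤ C1 := by
  exact_mod_cast h.hC1

theorem Env.t1R (h : Env P Q s x t t1 l I C1 N κ FF K0 K' η c0 c' F jp) : (1:ℝ) ≤ t1 := by
  have := h.ht1
  exact_mod_cast (show 1 ≤ t1 by omega)

theorem Env.xs (h : Env P Q s x t t1 l I C1 N κ FF K0 K' η c0 c' F jp) :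
    (x:ℝ) * s ≤ 2 ^ (I + 14) * (2 * Real.log N + 1) * C1 * t1 := by
  have h1 := h.hA.hxup
  rw [le_div_iff₀ (by linarith only [h.s1])] at h1
  linarith only [h1]

theorem Env.ne (h : Env P Q s x t t1 l I C1 N κ FF K0 K' η c0 c' F jp) :
    ∀ i ∈ idx F, vv i ≠ 0 := by
  intro i hi
  have h1 := h.hA.hoff i hi
  rw [mem_offDiag] at h1
  exact dualVec_ne_zero (i.2.1, i.2.2) h1.2.2

/-- five factors that are at least one -/
theorem Env.facs (h : Env P Q s x t t1 l I C1 N κ FF K0 K' η c0 c' F jp) :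
    1 ≤ κ ∧ (1:ℝ) ≤ 5 ^ d ∧ (1:ℝ) ≤ 2 ^ (I + 14) :=
  ⟨h.hA.hκ1, one_le_pow₀ (by norm_num), one_le_pow₀ (by norm_num)⟩

theorem Env.VV1 (h : Env P Q s x t t1 l I C1 N κ FF K0 K' η c0 c' F jp) :
    1 ≤ VV d l I C1 FF κ (2 * Real.log N + 1) := by
  unfold VV
  obtain ⟨f1, f2, f3⟩ := h.facs
  have g1 : (1:ℝ) ≤ FF ^ (d + 1) := one_le_pow₀ h.FF1
  have g2 : (1:ℝ) ≤ 2 ^ 29 * 5 ^ d := one_le_mul_of_one_le_of_one_le (by norm_num) f2
  have g3 := one_le_mul_of_one_le_of_one_le g2 f1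
  have g4 := one_le_mul_of_one_le_of_one_le g3 h.l1
  have g5 := one_le_mul_of_one_le_of_one_le g4 f3
  have g6 := one_le_mul_of_one_le_of_one_le g5 h.Λ1
  have g7 := one_le_mul_of_one_le_of_one_le g6 h.C1R
  exact one_le_mul_of_one_le_of_one_le g1 g7

/-- the first ratio -/
theorem Env.V_ge (h : Env P Q s x t t1 l I C1 N κ FF K0 K' η c0 c' F jp) :
    FF ^ (d + 1) * (2 ^ 29 * 5 ^ d * κ * l) * (x * s) ≤ VV d l I C1 FF κ (2 * Real.log N + 1) * t1 := by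
  unfold VV
  obtain ⟨f1, f2, f3⟩ := h.facs
  have h1 := h.xs
  have hFF := h.FF1
  have hl := h.l1
  have h2 : 0 ≤ FF ^ (d + 1) * (2 ^ 29 * 5 ^ d * κ * l) := by
    have : 0 ≤ FF := by linarith only [hFF]
    have : 0 ≤ κ := by linarith only [f1]
    positivity
  calc FF ^ (d + 1) * (2 ^ 29 * 5 ^ d * κ * l) * (x * s)
      ≤ FF ^ (d + 1) * (2 ^ 29 * 5 ^ d * κ * l) * (2 ^ (I + 14) * (2 * Real.log N + 1) * C1 * t1) :=
        mul_le_mul_of_nonneg_left h1 h2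
    _ = _ := by ring

/-- the second ratio -/
theorem Env.V_ge2 (h : Env P Q s x t t1 l I C1 N κ FF K0 K' η c0 c' F jp) :
    FF ^ (d + 1) * (2 ^ 29 * κ * l * (2 * Real.log N + 1)) ≤ VV d l I C1 FF κ (2 * Real.log N + 1) := by
  unfold VV
  obtain ⟨f1, f2, f3⟩ := h.facs
  have hFF0 : 0 ≤ FF := by linarith only [h.FF1]
  have hκ0 : 0 ≤ κ := by linarith only [f1]
  have hl0 : (0:ℝ) ≤ l := by linarith only [h.l1]
  have hΛ0 : 0 ≤ 2 * Real.log N + 1 := by linarith only [h.Λ1]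
  apply mul_le_mul_of_nonneg_left _ (by positivity)
  have g2 : (1:ℝ) ≤ 5 ^ d * 2 ^ (I + 14) * C1 :=
    one_le_mul_of_one_le_of_one_le (one_le_mul_of_one_le_of_one_le f2 f3) h.C1R
  calc 2 ^ 29 * κ * l * (2 * Real.log N + 1) = (2 ^ 29 * κ * l * (2 * Real.log N + 1)) * 1 := (mul_one _).symm
    _ ≤ (2 ^ 29 * κ * l * (2 * Real.log N + 1)) * (5 ^ d * 2 ^ (I + 14) * C1) :=
        mul_le_mul_of_nonneg_left g2 (by positivity)
    _ = _ := by ring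

open scoped Classical in
/-- plain count of a class -/
theorem Env.capA (h : Env P Q s x t t1 l I C1 N κ FF K0 K' η c0 c' F jp) (j : ℕ)
    (B : Finset (EuclideanSpace ℝ (Fin d))) (hBP : B ⊆ P) (hBj : ∀ p ∈ B, jp p = j) :
    (B.card : ℝ) * Q.card ≤ TT d l I C1 c' FF κ (2 * Real.log N + 1) K' *
      ((t1:ℝ) ^ (d + 1) / (s:ℝ) ^ 2 + (t1:ℝ) ^ d) := by
  have hs := h.s1
  have hs0 : (0:ℝ) < s := by linarith only [hs]
  have hq := h.q1
  have hq0 : (0:ℝ) < Q.card := by linarith only [hq]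
  have hx := h.x1
  have hx0 : (0:ℝ) < x := by linarith only [hx]
  have hΛ := h.Λ1
  have hκ := h.hA.hκ1
  have hl := h.l1
  have hFF := h.FF1
  have hFF0 : 0 < FF := by linarith only [hFF]
  have hκ0 : 0 < κ := by linarith only [hκ]
  have hl0 : (0:ℝ) < l := by linarith only [hl]
  have ht := h.t1R
  have ht0 : (0:ℝ) < t1 := by linarith only [ht]
  obtain ⟨Λ, hΛd⟩ : ∃ Λ, Λ = 2 * Real.log N + 1 := ⟨_, rfl⟩
  have hΛ1 : 1 ≤ Λ := by rw [hΛd]; exact hΛ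
  have hΛ0 : 0 < Λ := by linarith only [hΛ1]
  have h2j : (1:ℝ) ≤ 2 ^ j := one_le_pow₀ (by norm_num)
  have h2j0 : (0:ℝ) < 2 ^ j := by positivity
  have hcs := caseI d h.hd h.hK0 h.hET h.hK' h.hL1 P B Q s t t1 l I C1 N (2 ^ j) (8 * Q.card * Λ)
    (s * Q.card * x) (s * Q.card * 2 ^ j / (2048 * κ)) FF (idx F)
    ⟨h.hA.hs1, h.hA.hst, h.hA.hQP, hBP, h.hA.hQne, h2j, h.hA.hidx, ?_, h.ne, by positivity, ?_, ?_, ?_, ?_⟩
    h.ht1 h.hpin h.hN h.h4 h.h5 h.h6 h.hC1 h.hPN h.h8 h.hflat h.hFF (1 / 2 ^ j) (1 / 2 ^ j)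
    (VV d l I C1 FF κ Λ) (by positivity) (by rw [div_le_one h2j0]; exact h2j) (by positivity)
    (by rw [hΛd]; exact h.VV1) ?_ ?_
  · unfold TT
    rw [← hΛd]
    have hE0 : 0 ≤ 2 * FF * (K' * (l:ℝ) ^ c' * (48 * C1 * (l:ℝ)) ^ d) * VV d l I C1 FF κ Λ ^ (d + 1) := by
      have h1 : 0 ≤ VV d l I C1 FF κ Λ := by
        have := h.VV1; rw [← hΛd] at this; linarith only [this]
      have h2 : 0 ≤ K' := by linarith only [h.hK']
      positivity
    refine hcs.trans ?_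
    rw [mul_assoc (d:ℝ)]
    apply mul_le_mul_of_nonneg_left _ (by positivity)
    apply mul_le_mul_of_nonneg_left _ hE0
    have e1 : (2:ℝ) ^ j * ((1 / 2 ^ j) ^ 2 * (1 / 2 ^ j) * (t1:ℝ) ^ (d + 1) / (s:ℝ) ^ 2 +
        1 / 2 ^ j * (t1:ℝ) ^ d) = ((t1:ℝ) ^ (d + 1) / (s:ℝ) ^ 2) * (1 / (2 ^ j) ^ 2) + (t1:ℝ) ^ d := by
      field_simp
    rw [e1]
    have e2 : (1:ℝ) / (2 ^ j) ^ 2 ≤ 1 := by
      rw [div_le_one (by positivity)]
      exact one_le_pow₀ h2j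
    have e3 : ((t1:ℝ) ^ (d + 1) / (s:ℝ) ^ 2) * (1 / (2 ^ j) ^ 2) ≤ ((t1:ℝ) ^ (d + 1) / (s:ℝ) ^ 2) * 1 :=
      mul_le_mul_of_nonneg_left e2 (by positivity)
    linarith only [e3]
  · -- log
    refine le_trans ?_ h.hlog
    have h1 : (s:ℝ) * Q.card * x + 3 ≤ 8 * 5 ^ d * (s * Q.card * x) + 3 := by
      have h2 : (1:ℝ) ≤ 8 * 5 ^ d := one_le_mul_of_one_le_of_one_le (by norm_num) h.facs.2.1
      have h3 : 0 ≤ (s:ℝ) * Q.card * x := by positivity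
      nlinarith only [h2, h3]
    have h2 := Real.log_le_log (by positivity) h1
    linarith only [h2]
  · intro i hi
    have := h.hA.hline i hi
    rw [← hΛd] at this
    exact this
  · intro p hp
    have h1 := h.hA.hj2 p (hBP hp)
    rw [hBj p hp] at h1
    exact h1
  · -- hρ
    rw [lt_div_iff₀ (by positivity)]
    have h1 := h.hsbig
    rw [← hΛd] at h1
    have h2 : FF ^ (d + 2) * (8 * Q.card * Λ) * (2048 * κ) ≤
        (FF ^ (d + 2) * (2 ^ 29 * κ * l * Λ)) * Q.card := by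
      have h3 : FF ^ (d + 2) * (8 * Q.card * Λ) * (2048 * κ) =
          (FF ^ (d + 2) * κ * Λ * Q.card) * 2 ^ 14 := by ring
      have h4 : (FF ^ (d + 2) * (2 ^ 29 * κ * l * Λ)) * Q.card =
          (FF ^ (d + 2) * κ * Λ * Q.card) * (2 ^ 29 * l) := by ring
      rw [h3, h4]
      apply mul_le_mul_of_nonneg_left _ (by positivity)
      nlinarith only [hl]
    calc FF ^ (d + 2) * (8 * Q.card * Λ) * (2048 * κ)
        ≤ (FF ^ (d + 2) * (2 ^ 29 * κ * l * Λ)) * Q.card := h2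
      _ < s * Q.card := mul_lt_mul_of_pos_right h1 hq0
      _ ≤ s * Q.card * 2 ^ j := le_mul_of_one_le_right (by positivity) h2j
  · intro p hp Φ hΦ hpΦ A' hA' hA'ne
    have h1 := h.hA.hj3 p (hBP hp) Φ (hΦ.trans hBP) hpΦ A' hA' hA'ne
    rw [hBj p hp] at h1
    exact h1
  · -- W / ρ0
    have h1 := h.V_ge
    rw [← hΛd] at h1
    have e1 : FF ^ (d + 1) * (s * Q.card * x) / (s * Q.card * 2 ^ j / (2048 * κ)) =
        FF ^ (d + 1) * (2048 * κ) * (x * s) / (s * 2 ^ j) := by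
      field_simp
    have e2 : VV d l I C1 FF κ Λ * (1 / 2 ^ j) * (t1:ℝ) / s = VV d l I C1 FF κ Λ * t1 / (s * 2 ^ j) := by
      field_simp
    rw [e1, e2]
    apply div_le_div_of_nonneg_right _ (by positivity)
    refine le_trans ?_ h1
    apply mul_le_mul_of_nonneg_right _ (by positivity)
    apply mul_le_mul_of_nonneg_left _ (by positivity)
    have h2 : (1:ℝ) ≤ 5 ^ d * l := one_le_mul_of_one_le_of_one_le h.facs.2.1 hl
    calc 2048 * κ ≤ (2 ^ 29 * κ) * 1 := by linarith only [hκ0]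
      _ ≤ (2 ^ 29 * κ) * (5 ^ d * l) := mul_le_mul_of_nonneg_left h2 (by positivity)
      _ = _ := by ring
  · have h1 := h.V_ge2
    rw [← hΛd] at h1
    have e1 : FF ^ (d + 1) * (8 * Q.card * Λ) / (s * Q.card * 2 ^ j / (2048 * κ)) =
        FF ^ (d + 1) * (2 ^ 14 * κ * Λ) / (s * 2 ^ j) := by
      field_simp
      norm_num
    have e2 : VV d l I C1 FF κ Λ * (1 / 2 ^ j) / s = VV d l I C1 FF κ Λ / (s * 2 ^ j) := by
      field_simp
    rw [e1, e2]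
    apply div_le_div_of_nonneg_right _ (by positivity)
    refine le_trans ?_ h1
    apply mul_le_mul_of_nonneg_left _ (by positivity)
    have h3 : 2 ^ 29 * κ * l * Λ = (κ * Λ) * (2 ^ 29 * l) := by ring
    have h4 : 2 ^ 14 * κ * Λ = (κ * Λ) * 2 ^ 14 := by ring
    rw [h3, h4]
    apply mul_le_mul_of_nonneg_left _ (by positivity)
    nlinarith only [hl]

end

end Vale.Agent.P054I
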