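import Vale.Agent.P054.MathlibUsed
import Vale.Agent.P054.H449.IM.Cap
attribute [-instance] ProperSMul.toContinuousSMul IsTopologicalTorsor.toContinuousSMul IdemSemiring.toCanonicallyOrderedAdd IdemSemiring.toMulLeftMono IdemSemiring.toMulRightMono AddQuantale.instAddLeftMono AddQuantale.instAddRightMono Quantale.instMulLeftMono Quantale.instMulRightMono FiniteDimensional.rclike_to_real IsScalarTower.complexToReal FiniteDimensional.complexToReal

set_option linter.all false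
set_option autoImplicit false

open Finset Vale.Agent.P054K

namespace Vale.Agent.P054I

/-- the threshold of level `a` and class `j` for the weight of a mirror -/
noncomputable def mu (q x η : ℝ) (j a : ℕ) : ℝ := 4 ^ j * q * x ^ 2 / (η * 4 ^ a)

/-- the threshold of level `a` and class `j` for the number of mirrors -/
noncomputable def hh (s x η : ℝ) (j a : ℕ) : ℝ := s * η * 4 ^ a / (x ^ 2 * 2 ^ j)

section

variable {d : ℕ} {P Q : Finset (EuclideanSpace ℝ (Fin d))} {s x t t1 l I C1 : ℕ}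
    {N κ FF K0 K' η : ℝ} {c0 c' : ℕ}
    {F : Fin s → Finset (Finset (EuclideanSpace ℝ (Fin d)))}
    {jp : EuclideanSpace ℝ (Fin d) → ℕ}

/-- the result of the count with `u = 2^a/(x 2^j)`, `v = 2^j x²/(η 4^a)` -/
theorem fin_uv (T0 η x s t : ℝ) (d j a : ℕ) (hT0 : 0 ≤ T0) (hη : 0 < η) (hx : 0 < x) (hs : 0 < s)
    (ht : 0 < t) (ha : (2:ℝ) ^ a ≤ x) :
    T0 * (2 ^ j * ((2 ^ a / (x * 2 ^ j)) ^ 2 * (2 ^ j * x ^ 2 / (η * 4 ^ a)) * t ^ (d + 1) / s ^ 2 +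
      2 ^ a / (x * 2 ^ j) * t ^ d)) ≤ T0 * (t ^ (d + 1) / (s ^ 2 * η) + t ^ d) := by
  apply mul_le_mul_of_nonneg_left _ hT0
  have h4 : (4:ℝ) ^ a = (2 ^ a) ^ 2 := by
    rw [← pow_mul, mul_comm, pow_mul]; norm_num
  have e1 : 2 ^ j * ((2 ^ a / (x * 2 ^ j)) ^ 2 * (2 ^ j * x ^ 2 / (η * 4 ^ a)) * t ^ (d + 1) / s ^ 2 +
      2 ^ a / (x * 2 ^ j) * t ^ d) = t ^ (d + 1) / (s ^ 2 * η) + 2 ^ a / x * t ^ d := by
    rw [h4]
    field_simp
  rw [e1]
  have h1 : (2:ℝ) ^ a / x ≤ 1 := by rw [div_le_one hx]; exact ha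
  have h2 : (2:ℝ) ^ a / x * t ^ d ≤ 1 * t ^ d := mul_le_mul_of_nonneg_right h1 (by positivity)
  linarith only [h2]

open scoped Classical in
/-- points with many light pairs of level `a` -/
theorem Env.capB (h : Env P Q s x t t1 l I C1 N κ FF K0 K' η c0 c' F jp) (j a : ℕ)
    (ha : (2:ℝ) ^ a ≤ x)
    (B : Finset (EuclideanSpace ℝ (Fin d))) (hBP : B ⊆ P) (hBj : ∀ p ∈ B, jp p = j)
    (hB : ∀ p ∈ B, s * Q.card * 2 ^ j / (2 ^ 26 * κ * l) ≤
      mass (Jt F a (mu Q.card x η j a)) vv (hyp p)) :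
    (B.card : ℝ) * Q.card ≤ TT d l I C1 c' FF κ (2 * Real.log N + 1) K' *
      ((t1:ℝ) ^ (d + 1) / ((s:ℝ) ^ 2 * η) + (t1:ℝ) ^ d) := by
  have hs := h.s1
  have hs0 : (0:ℝ) < s := by linarith only [hs]
  have hq := h.q1
  have hq0 : (0:ℝ) < Q.card := by linarith only [hq]
  have hx := h.x1
  have hx0 : (0:ℝ) < x := by linarith only [hx]
  have hΛ := h.Λ1
  have hκ := h.hA.hκ1
  have hl := h.l1
  have hFF := h.FF1
  have hFF0 : 0 < FF := by linarith only [hFF]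
  have hκ0 : 0 < κ := by linarith only [hκ]
  have hl0 : (0:ℝ) < l := by linarith only [hl]
  have ht := h.t1R
  have ht0 : (0:ℝ) < t1 := by linarith only [ht]
  have hη0 : 0 < η := by linarith only [h.hη1]
  obtain ⟨Λ, hΛd⟩ : ∃ Λ, Λ = 2 * Real.log N + 1 := ⟨_, rfl⟩
  have hΛ1 : 1 ≤ Λ := by rw [hΛd]; exact hΛ
  have hΛ0 : 0 < Λ := by linarith only [hΛ1]
  have h2j : (1:ℝ) ≤ 2 ^ j := one_le_pow₀ (by norm_num)
  have h2j0 : (0:ℝ) < 2 ^ j := by positivity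
  have h2a0 : (0:ℝ) < 2 ^ a := by positivity
  set μ : ℝ := mu Q.card x η j a with hμ
  have hμ0 : 0 < μ := by rw [hμ]; unfold mu; positivity
  have hJtl : Jt F a μ ⊆ Jl F a := filter_subset _ _
  have hJli : Jl F a ⊆ idx F := filter_subset _ _
  have hV1 : 1 ≤ VV d l I C1 FF κ Λ := by rw [hΛd]; exact h.VV1
  have hcs := caseI d h.hd h.hK0 h.hET h.hK' h.hL1 P B Q s t t1 l I C1 N (2 ^ j)
    (min μ (8 * Q.card * Λ))
    (8 * 5 ^ d * 2 ^ a * (s * Q.card)) (s * Q.card * 2 ^ j / (2 ^ 26 * κ * l)) FF (Jt F a μ)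
    ⟨h.hA.hs1, h.hA.hst, h.hA.hQP, hBP, h.hA.hQne, h2j, ?_, ?_,
      fun i hi => h.ne i (hJli (hJtl hi)), lt_min hμ0 (by positivity), ?_, hB, ?_, ?_⟩
    h.ht1 h.hpin h.hN h.h4 h.h5 h.h6 h.hC1 h.hPN h.h8 h.hflat h.hFF (2 ^ a / (x * 2 ^ j))
    (2 ^ j * x ^ 2 / (η * 4 ^ a))
    (VV d l I C1 FF κ Λ) (by positivity) ?_ (by positivity) hV1 ?_ ?_
  · have hE0 : 0 ≤ 2 * FF * (K' * (l:ℝ) ^ c' * (48 * C1 * (l:ℝ)) ^ d) * VV d l I C1 FF κ Λ ^ (d + 1) := by
      have h1 : 0 ≤ VV d l I C1 FF κ Λ := by linarith only [hV1]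
      have h2 : 0 ≤ K' := by linarith only [h.hK']
      positivity
    rw [← mul_assoc (d:ℝ)] at hcs
    refine hcs.trans ?_
    unfold TT
    rw [← hΛd]
    exact fin_uv _ η x s t1 d j a (by positivity) hη0 hx0 hs0 ht0 ha
  · -- number of pairs
    have h1 := card_Jl h.hLP P Q s x l t1 I C1 (2 * Real.log N + 1) κ F jp h.hA a
    have h2 : ((Jt F a μ).card : ℝ) ≤ (Jl F a).card := by exact_mod_cast card_le_card hJtl
    exact h2.trans h1
  · refine le_trans ?_ h.hlog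
    have h1 : 8 * 5 ^ d * 2 ^ a * ((s:ℝ) * Q.card) + 3 ≤ 8 * 5 ^ d * (s * Q.card * x) + 3 := by
      have h2 : 8 * 5 ^ d * 2 ^ a * ((s:ℝ) * Q.card) = (8 * 5 ^ d * (s * Q.card)) * 2 ^ a := by ring
      have h3 : 8 * 5 ^ d * ((s:ℝ) * Q.card * x) = (8 * 5 ^ d * (s * Q.card)) * x := by ring
      rw [h2, h3]
      have := mul_le_mul_of_nonneg_left ha (show (0:ℝ) ≤ 8 * 5 ^ d * (s * Q.card) by positivity)
      linarith only [this]
    have h2 := Real.log_le_log (by positivity) h1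
    linarith only [h2]
  · intro i hi
    apply le_min
    · have h1 := (mem_filter.mp hi).2
      exact (mass_mono hJtl vv le_rfl).trans h1.le
    · have h1 := h.hA.hline i (hJli (hJtl hi))
      rw [← hΛd] at h1
      exact (mass_mono (hJtl.trans hJli) vv le_rfl).trans h1
  · -- hρ
    rw [lt_div_iff₀ (by positivity)]
    have h1 := h.hsbig
    rw [← hΛd] at h1
    have h2 : FF ^ (d + 2) * min μ (8 * Q.card * Λ) * (2 ^ 26 * κ * l) ≤
        (FF ^ (d + 2) * (2 ^ 29 * κ * l * Λ)) * Q.card := by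
      have h3 : FF ^ (d + 2) * min μ (8 * Q.card * Λ) * (2 ^ 26 * κ * l) ≤
          FF ^ (d + 2) * (8 * Q.card * Λ) * (2 ^ 26 * κ * l) := by
        apply mul_le_mul_of_nonneg_right _ (by positivity)
        exact mul_le_mul_of_nonneg_left (min_le_right _ _) (by positivity)
      refine h3.trans (le_of_eq ?_)
      ring
    calc FF ^ (d + 2) * min μ (8 * Q.card * Λ) * (2 ^ 26 * κ * l)
        ≤ (FF ^ (d + 2) * (2 ^ 29 * κ * l * Λ)) * Q.card := h2
      _ < s * Q.card := mul_lt_mul_of_pos_right h1 hq0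
      _ ≤ s * Q.card * 2 ^ j := le_mul_of_one_le_right (by positivity) h2j
  · intro p hp Φ hΦ hpΦ A' hA' hA'ne
    have h1 := h.hA.hj3 p (hBP hp) Φ (hΦ.trans hBP) hpΦ A' hA' hA'ne
    rw [hBj p hp] at h1
    exact h1
  · -- u ≤ 1
    rw [div_le_one (by positivity)]
    exact ha.trans (le_mul_of_one_le_right hx0.le h2j)
  · -- W / ρ0
    have h1 := h.V_ge
    rw [← hΛd] at h1
    have e1 : FF ^ (d + 1) * (8 * 5 ^ d * 2 ^ a * (s * Q.card)) / (s * Q.card * 2 ^ j / (2 ^ 26 * κ * l)) =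
        FF ^ (d + 1) * (2 ^ 29 * 5 ^ d * κ * l) * (x * s) * (2 ^ a / (x * s * 2 ^ j)) := by
      field_simp
      norm_num
    have e2 : VV d l I C1 FF κ Λ * (2 ^ a / (x * 2 ^ j)) * (t1:ℝ) / s =
        (VV d l I C1 FF κ Λ * t1) * (2 ^ a / (x * s * 2 ^ j)) := by
      field_simp
    rw [e1, e2]
    exact mul_le_mul_of_nonneg_right h1 (by positivity)
  · have h1 := h.V_ge2
    rw [← hΛd] at h1
    have e2 : VV d l I C1 FF κ Λ * (2 ^ j * (x:ℝ) ^ 2 / (η * 4 ^ a)) / s =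
        VV d l I C1 FF κ Λ * (2 ^ j * (x:ℝ) ^ 2 / (η * 4 ^ a * s)) := by
      field_simp
    rw [e2]
    have e1 : FF ^ (d + 1) * μ / (s * Q.card * 2 ^ j / (2 ^ 26 * κ * l)) =
        (FF ^ (d + 1) * (2 ^ 26 * κ * l)) * (2 ^ j * (x:ℝ) ^ 2 / (η * 4 ^ a * s)) := by
      rw [hμ]
      unfold mu
      have h4 : (4:ℝ) ^ j = (2 ^ j) ^ 2 := by
        rw [← pow_mul, mul_comm, pow_mul]; norm_num
      rw [h4]
      field_simp
    have e3 : FF ^ (d + 1) * min μ (8 * Q.card * Λ) / (s * Q.card * 2 ^ j / (2 ^ 26 * κ * l)) ≤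
        FF ^ (d + 1) * μ / (s * Q.card * 2 ^ j / (2 ^ 26 * κ * l)) := by
      apply div_le_div_of_nonneg_right _ (by positivity)
      exact mul_le_mul_of_nonneg_left (min_le_left _ _) (by positivity)
    refine e3.trans ?_
    rw [e1]
    apply mul_le_mul_of_nonneg_right _ (by positivity)
    refine le_trans ?_ h1
    apply mul_le_mul_of_nonneg_left _ (by positivity)
    have h3 : 2 ^ 26 * κ * l * 1 ≤ 2 ^ 26 * κ * l * (8 * Λ) :=
      mul_le_mul_of_nonneg_left (by linarith only [hΛ1]) (by positivity)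
    linarith only [h3]

open scoped Classical in
/-- points on many heavy mirrors of level `a` -/
theorem Env.capC (h : Env P Q s x t t1 l I C1 N κ FF K0 K' η c0 c' F jp) (j a : ℕ)
    (ha : (2:ℝ) ^ a ≤ x)
    (B : Finset (EuclideanSpace ℝ (Fin d))) (hBP : B ⊆ P) (hBj : ∀ p ∈ B, jp p = j)
    (hB : ∀ p ∈ B, hh s x η j a < ((rl (Jl F a) (mu Q.card x η j a) p).card : ℝ)) :
    (B.card : ℝ) * Q.card ≤ TT d l I C1 c' FF κ (2 * Real.log N + 1) K' *
      ((t1:ℝ) ^ (d + 1) / ((s:ℝ) ^ 2 * η) + (t1:ℝ) ^ d) := by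
  have hs := h.s1
  have hs0 : (0:ℝ) < s := by linarith only [hs]
  have hq := h.q1
  have hq0 : (0:ℝ) < Q.card := by linarith only [hq]
  have hx := h.x1
  have hx0 : (0:ℝ) < x := by linarith only [hx]
  have hΛ := h.Λ1
  have hκ := h.hA.hκ1
  have hl := h.l1
  have hFF := h.FF1
  have hFF0 : 0 < FF := by linarith only [hFF]
  have hκ0 : 0 < κ := by linarith only [hκ]
  have hl0 : (0:ℝ) < l := by linarith only [hl]
  have ht := h.t1R
  have ht0 : (0:ℝ) < t1 := by linarith only [ht]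
  have hη0 : 0 < η := by linarith only [h.hη1]
  obtain ⟨Λ, hΛd⟩ : ∃ Λ, Λ = 2 * Real.log N + 1 := ⟨_, rfl⟩
  have hΛ1 : 1 ≤ Λ := by rw [hΛd]; exact hΛ
  have hΛ0 : 0 < Λ := by linarith only [hΛ1]
  have h2j : (1:ℝ) ≤ 2 ^ j := one_le_pow₀ (by norm_num)
  have h2j0 : (0:ℝ) < 2 ^ j := by positivity
  have h2a0 : (0:ℝ) < 2 ^ a := by positivity
  set μ : ℝ := mu Q.card x η j a with hμ
  have hμ0 : 0 < μ := by rw [hμ]; unfold mu; positivity
  have hJli : Jl F a ⊆ idx F := filter_subset _ _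
  have hV1 : 1 ≤ VV d l I C1 FF κ Λ := by rw [hΛd]; exact h.VV1
  have h4j : (4:ℝ) ^ j = (2 ^ j) ^ 2 := by
    rw [← pow_mul, mul_comm, pow_mul]; norm_num
  have h4a : (4:ℝ) ^ a = (2 ^ a) ^ 2 := by
    rw [← pow_mul, mul_comm, pow_mul]; norm_num
  have hh0 : 0 < hh s x η j a := by unfold hh; positivity
  have hV0 : 0 ≤ VV d l I C1 FF κ Λ := by linarith only [hV1]
  have hTT0 : 0 ≤ TT d l I C1 c' FF κ Λ K' := by
    unfold TT
    have h2 : 0 ≤ K' := by linarith only [h.hK']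
    positivity
  rcases B.eq_empty_or_nonempty with hBe | ⟨p0, hp0⟩
  · rw [hBe, card_empty]; simp only [Nat.cast_zero, zero_mul]
    rw [← hΛd]
    positivity
  -- μ is not larger than the maximal line mass
  have hμle : μ ≤ 8 * Q.card * Λ := by
    have h1 := hB p0 hp0
    have h2 : 0 < (rl (Jl F a) μ p0).card := by
      have : (0:ℝ) < (rl (Jl F a) μ p0).card := lt_trans hh0 h1
      exact_mod_cast this
    rw [Finset.card_pos] at h2
    obtain ⟨L, hL⟩ := h2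
    unfold rl at hL
    rw [mem_image] at hL
    obtain ⟨i, hi, _⟩ := hL
    rw [mem_filter] at hi
    have h3 := h.hA.hline i (hJli hi.1)
    rw [← hΛd] at h3
    exact hi.2.2.trans ((mass_mono hJli vv le_rfl).trans h3)
  have hhlow : s / (8 * Λ) ≤ hh s x η j a := by
    -- 4^j x² ≤ 8 Λ η 4^a
    have h1 : 4 ^ j * (x:ℝ) ^ 2 ≤ 8 * Λ * (η * 4 ^ a) := by
      have h2 := hμle
      rw [hμ] at h2
      unfold mu at h2
      rw [div_le_iff₀ (by positivity)] at h2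
      have h3 : Q.card * (4 ^ j * (x:ℝ) ^ 2) ≤ Q.card * (8 * Λ * (η * 4 ^ a)) := by
        calc (Q.card:ℝ) * (4 ^ j * (x:ℝ) ^ 2) = 4 ^ j * Q.card * (x:ℝ) ^ 2 := by ring
          _ ≤ 8 * Q.card * Λ * (η * 4 ^ a) := h2
          _ = _ := by ring
      exact le_of_mul_le_mul_left h3 hq0
    unfold hh
    rw [div_le_div_iff₀ (by positivity) (by positivity)]
    have h5 : (2:ℝ) ^ j ≤ 4 ^ j := pow_le_pow_left₀ (by norm_num) (by norm_num) j
    calc (s:ℝ) * ((x:ℝ) ^ 2 * 2 ^ j) = s * (2 ^ j * (x:ℝ) ^ 2) := by ring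
      _ ≤ s * (4 ^ j * (x:ℝ) ^ 2) := by
          apply mul_le_mul_of_nonneg_left _ hs0.le
          exact mul_le_mul_of_nonneg_right h5 (by positivity)
      _ ≤ s * (8 * Λ * (η * 4 ^ a)) := mul_le_mul_of_nonneg_left h1 hs0.le
      _ = _ := by ring
  have hμ1 : 1 ≤ μ := by
    rw [hμ]; unfold mu
    rw [one_le_div (by positivity)]
    have h1 : (4:ℝ) ^ a ≤ (x:ℝ) ^ 2 := by
      rw [h4a]; exact pow_le_pow_left₀ h2a0.le ha 2
    have h2 : (1:ℝ) ≤ 4 ^ j := one_le_pow₀ (by norm_num)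
    calc η * 4 ^ a ≤ Q.card * (x:ℝ) ^ 2 := mul_le_mul h.hηQ h1 (by positivity) hq0.le
      _ ≤ 4 ^ j * (Q.card * (x:ℝ) ^ 2) := le_mul_of_one_le_left (by positivity) h2
      _ = _ := by ring
  obtain ⟨R, hRJ, hRc, hRl, hRm⟩ := exists_rep (Jl F a) (fun i hi => h.ne i (hJli hi)) μ hμ0
  have hJlc := card_Jl h.hLP P Q s x l t1 I C1 (2 * Real.log N + 1) κ F jp h.hA a
  have hcs := caseI d h.hd h.hK0 h.hET h.hK' h.hL1 P B Q s t t1 l I C1 N (2 ^ j)
    1 (8 * 5 ^ d * 2 ^ a * (s * Q.card) / μ) (hh s x η j a) FF R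
    ⟨h.hA.hs1, h.hA.hst, h.hA.hQP, hBP, h.hA.hQne, h2j, ?_, ?_,
      fun i hi => h.ne i (hJli (hRJ hi)), one_pos, hRl, ?_, ?_, ?_⟩
    h.ht1 h.hpin h.hN h.h4 h.h5 h.h6 h.hC1 h.hPN h.h8 h.hflat h.hFF (2 ^ a / (x * 2 ^ j))
    (2 ^ j * x ^ 2 / (η * 4 ^ a))
    (VV d l I C1 FF κ Λ) (by positivity) ?_ (by positivity) hV1 ?_ ?_
  · have hE0 : 0 ≤ 2 * FF * (K' * (l:ℝ) ^ c' * (48 * C1 * (l:ℝ)) ^ d) * VV d l I C1 FF κ Λ ^ (d + 1) := by
      have h2 : 0 ≤ K' := by linarith only [h.hK']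
      positivity
    rw [← mul_assoc (d:ℝ)] at hcs
    refine hcs.trans ?_
    unfold TT
    rw [← hΛd]
    exact fin_uv _ η x s t1 d j a (by positivity) hη0 hx0 hs0 ht0 ha
  · rw [le_div_iff₀ hμ0]
    exact hRc.trans hJlc
  · refine le_trans ?_ h.hlog
    have h1 : 8 * 5 ^ d * 2 ^ a * ((s:ℝ) * Q.card) / μ + 3 ≤ 8 * 5 ^ d * (s * Q.card * x) + 3 := by
      have h2 : 8 * 5 ^ d * 2 ^ a * ((s:ℝ) * Q.card) = (8 * 5 ^ d * (s * Q.card)) * 2 ^ a := by ring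
      have h3 : 8 * 5 ^ d * ((s:ℝ) * Q.card * x) = (8 * 5 ^ d * (s * Q.card)) * x := by ring
      have h4 : 8 * 5 ^ d * 2 ^ a * ((s:ℝ) * Q.card) / μ ≤ 8 * 5 ^ d * 2 ^ a * ((s:ℝ) * Q.card) :=
        div_le_self (by positivity) hμ1
      rw [h3]
      rw [h2] at h4
      have := mul_le_mul_of_nonneg_left ha (show (0:ℝ) ≤ 8 * 5 ^ d * (s * Q.card) by positivity)
      rw [h2]
      linarith only [this, h4]
    have h2 := Real.log_le_log (by positivity) h1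
    linarith only [h2]
  · intro p hp
    exact (hB p hp).le.trans (hRm p)
  · -- hρ
    rw [mul_one]
    refine lt_of_lt_of_le ?_ hhlow
    rw [lt_div_iff₀ (by positivity)]
    have h1 := h.hsbig
    rw [← hΛd] at h1
    refine lt_of_le_of_lt ?_ h1
    apply mul_le_mul_of_nonneg_left _ (by positivity)
    have h2 : (1:ℝ) ≤ κ * l := one_le_mul_of_one_le_of_one_le hκ hl
    calc 8 * Λ ≤ (2 ^ 29 * Λ) * 1 := by linarith only [hΛ0]
      _ ≤ (2 ^ 29 * Λ) * (κ * l) := mul_le_mul_of_nonneg_left h2 (by positivity)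
      _ = _ := by ring
  · intro p hp Φ hΦ hpΦ A' hA' hA'ne
    have h1 := h.hA.hj3 p (hBP hp) Φ (hΦ.trans hBP) hpΦ A' hA' hA'ne
    rw [hBj p hp] at h1
    exact h1
  · rw [div_le_one (by positivity)]
    exact ha.trans (le_mul_of_one_le_right hx0.le h2j)
  · -- W / ρ0
    have h1 := h.V_ge
    rw [← hΛd] at h1
    have e1 : FF ^ (d + 1) * (8 * 5 ^ d * 2 ^ a * (s * Q.card) / μ) / hh s x η j a =
        FF ^ (d + 1) * (8 * 5 ^ d) * (x * s) * (2 ^ a / (x * s * 2 ^ j)) := by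
      rw [hμ]
      unfold mu hh
      rw [h4j]
      field_simp
    have e2 : VV d l I C1 FF κ Λ * (2 ^ a / (x * 2 ^ j)) * (t1:ℝ) / s =
        (VV d l I C1 FF κ Λ * t1) * (2 ^ a / (x * s * 2 ^ j)) := by
      field_simp
    rw [e1, e2]
    apply mul_le_mul_of_nonneg_right _ (by positivity)
    refine le_trans ?_ h1
    apply mul_le_mul_of_nonneg_right _ (by positivity)
    apply mul_le_mul_of_nonneg_left _ (by positivity)
    have h2 : (1:ℝ) ≤ κ * l := one_le_mul_of_one_le_of_one_le hκ hl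
    have h5 : (0:ℝ) < 5 ^ d := by positivity
    calc (8:ℝ) * 5 ^ d ≤ (2 ^ 29 * 5 ^ d) * 1 := by linarith only [h5]
      _ ≤ (2 ^ 29 * 5 ^ d) * (κ * l) := mul_le_mul_of_nonneg_left h2 (by positivity)
      _ = _ := by ring
  · have h1 := h.V_ge2
    rw [← hΛd] at h1
    have e2 : VV d l I C1 FF κ Λ * (2 ^ j * (x:ℝ) ^ 2 / (η * 4 ^ a)) / s =
        VV d l I C1 FF κ Λ * (2 ^ j * (x:ℝ) ^ 2 / (η * 4 ^ a * s)) := by
      field_simp
    have e1 : FF ^ (d + 1) * 1 / hh s x η j a =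
        FF ^ (d + 1) * (2 ^ j * (x:ℝ) ^ 2 / (η * 4 ^ a * s)) := by
      unfold hh
      field_simp
    rw [e1, e2]
    apply mul_le_mul_of_nonneg_right _ (by positivity)
    refine le_trans ?_ h1
    have h2 : (1:ℝ) ≤ 2 ^ 29 * κ * l * Λ := by
      have h3 : (1:ℝ) ≤ 2 ^ 29 * κ := one_le_mul_of_one_le_of_one_le (by norm_num) hκ
      exact one_le_mul_of_one_le_of_one_le (one_le_mul_of_one_le_of_one_le h3 hl) hΛ1
    exact le_mul_of_one_le_right (by positivity) h2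

end

end Vale.Agent.P054I
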