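import Vale.Agent.P054.MathlibUsed
import Vale.Agent.P054.H449.IM.Cap2
import Vale.Agent.P054.H449.IM.Defs4
attribute [-instance] ProperSMul.toContinuousSMul IsTopologicalTorsor.toContinuousSMul IdemSemiring.toCanonicallyOrderedAdd IdemSemiring.toMulLeftMono IdemSemiring.toMulRightMono AddQuantale.instAddLeftMono AddQuantale.instAddRightMono Quantale.instMulLeftMono Quantale.instMulRightMono FiniteDimensional.rclike_to_real IsScalarTower.complexToReal FiniteDimensional.complexToReal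

set_option linter.all false
set_option autoImplicit false

open Finset Vale.Agent.P054K Vale.Agent.P054G

namespace Vale.Agent.P054I

theorem Bad_mono {d : ℕ} {X : Finset (EuclideanSpace ℝ (Fin d))} {k k' : ℝ}
    {p : EuclideanSpace ℝ (Fin d)} (h : Bad X k p) (hk : k ≤ k') : Bad X k' p := by
  obtain ⟨H, h1, h2, h3⟩ := h
  exact ⟨H, h1.trans hk, h2, h3⟩

open scoped Classical in
/-- double counting -/
theorem exists_block {α β : Type} (Bs : Finset β) (H : Finset α) (R : β → α → Prop)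
    (hB : 0 < Bs.card)
    (h : ∀ p ∈ H, 8 * (Bs.filter (fun b => ¬ R b p)).card ≤ 3 * Bs.card) :
    ∃ b ∈ Bs, H.card ≤ 2 * (H.filter (fun p => R b p)).card := by
  by_contra hcon
  push Not at hcon
  have h1 : ∑ b ∈ Bs, (2 * (H.filter (fun p => R b p)).card + 1) ≤ ∑ _b ∈ Bs, H.card :=
    Finset.sum_le_sum (fun b hb => hcon b hb)
  rw [Finset.sum_add_distrib, Finset.sum_const, Finset.sum_const, ← Finset.mul_sum, smul_eq_mul,
    smul_eq_mul, mul_one] at h1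
  have h2 : ∑ b ∈ Bs, (H.filter (fun p => R b p)).card =
      ∑ p ∈ H, (Bs.filter (fun b => R b p)).card := by
    simp only [Finset.card_filter]
    rw [Finset.sum_comm]
  have h3 : ∑ p ∈ H, 5 * Bs.card ≤ ∑ p ∈ H, 8 * (Bs.filter (fun b => R b p)).card := by
    apply Finset.sum_le_sum
    intro p hp
    have h4 := h p hp
    have h5 : (Bs.filter (fun b => R b p)).card + (Bs.filter (fun b => ¬ R b p)).card = Bs.card :=
      Finset.card_filter_add_card_filter_not _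
    omega
  rw [Finset.sum_const, smul_eq_mul, ← Finset.mul_sum] at h3
  rw [h2] at h1
  have h6 : H.card * (5 * Bs.card) = 5 * (Bs.card * H.card) := by ring
  rw [h6] at h3
  omega

/-- constants of the count -/
theorem const_TT (d c0 c' : ℕ) (K0 K' : ℝ) (hK0 : 1 ≤ K0) (hK' : 1 ≤ K') :
    ∃ (KT : ℝ) (cT : ℕ), 1 ≤ KT ∧ ∀ (l I : ℕ) (Λ : ℝ), (1:ℝ) ≤ l → 1 ≤ Λ → Λ ≤ l →
      (2:ℝ) ^ I ≤ l →
      TT d l I 256 c' (K0 * (l:ℝ) ^ c0) (2 * (5 * (l:ℝ)) ^ (d + 1)) Λ K' ≤ KT * (l:ℝ) ^ cT := by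
  obtain ⟨KV, hKV⟩ : ∃ KV : ℝ, KV = K0 ^ (d + 1) * (2 ^ 29 * 5 ^ d * (2 * 5 ^ (d + 1)) * 2 ^ 14 * 256) :=
    ⟨_, rfl⟩
  obtain ⟨cV, hcV⟩ : ∃ cV : ℕ, cV = c0 * (d + 1) + (d + 1) + 3 := ⟨_, rfl⟩
  have hKV0 : 0 ≤ KV := by rw [hKV]; positivity
  refine ⟨1 + d * (2 * K0 * (K' * (48 * 256) ^ d) * KV ^ (d + 1)),
    c0 + c' + d + cV * (d + 1), ?_, ?_⟩
  · have : 0 ≤ (d:ℝ) * (2 * K0 * (K' * (48 * 256) ^ d) * KV ^ (d + 1)) := by positivity
    linarith only [this]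
  · intro l I Λ hl hΛ1 hΛ hI
    have hl0 : (0:ℝ) < l := by linarith only [hl]
    have hV : VV d l I 256 (K0 * (l:ℝ) ^ c0) (2 * (5 * (l:ℝ)) ^ (d + 1)) Λ ≤ KV * (l:ℝ) ^ cV := by
      unfold VV
      have h1 : (2:ℝ) ^ (I + 14) * Λ ≤ 2 ^ 14 * ((l:ℝ) * l) := by
        rw [pow_add]
        calc (2:ℝ) ^ I * 2 ^ 14 * Λ = 2 ^ 14 * (2 ^ I * Λ) := by ring
          _ ≤ 2 ^ 14 * ((l:ℝ) * l) := by
              apply mul_le_mul_of_nonneg_left _ (by positivity)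
              exact mul_le_mul hI hΛ (by linarith only [hΛ1]) (by positivity)
      have e1 : (K0 * (l:ℝ) ^ c0) ^ (d + 1) * (2 ^ 29 * 5 ^ d * (2 * (5 * (l:ℝ)) ^ (d + 1)) * l *
          2 ^ (I + 14) * Λ * ((256:ℕ):ℝ)) =
          ((K0 * (l:ℝ) ^ c0) ^ (d + 1) * (2 ^ 29 * 5 ^ d * (2 * (5 * (l:ℝ)) ^ (d + 1)) * l * 256)) *
            (2 ^ (I + 14) * Λ) := by
        push_cast; ring
      rw [e1]
      calc ((K0 * (l:ℝ) ^ c0) ^ (d + 1) * (2 ^ 29 * 5 ^ d * (2 * (5 * (l:ℝ)) ^ (d + 1)) * l * 256)) *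
            (2 ^ (I + 14) * Λ)
          ≤ ((K0 * (l:ℝ) ^ c0) ^ (d + 1) * (2 ^ 29 * 5 ^ d * (2 * (5 * (l:ℝ)) ^ (d + 1)) * l * 256)) *
            (2 ^ 14 * ((l:ℝ) * l)) := mul_le_mul_of_nonneg_left h1 (by positivity)
        _ = KV * (l:ℝ) ^ cV := by
            rw [hKV, hcV, mul_pow K0, mul_pow 5 (l:ℝ), ← pow_mul, pow_add (l:ℝ) (c0 * (d + 1) + (d + 1)) 3,
              pow_add (l:ℝ) (c0 * (d + 1)) (d + 1)]
            ring
    have hV0 : 0 ≤ VV d l I 256 (K0 * (l:ℝ) ^ c0) (2 * (5 * (l:ℝ)) ^ (d + 1)) Λ := by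
      unfold VV; positivity
    have h2 := pow_le_pow_left₀ hV0 hV (d + 1)
    unfold TT
    calc (d:ℝ) * (2 * (K0 * (l:ℝ) ^ c0) * (K' * (l:ℝ) ^ c' * (48 * ((256:ℕ):ℝ) * (l:ℝ)) ^ d) *
          VV d l I 256 (K0 * (l:ℝ) ^ c0) (2 * (5 * (l:ℝ)) ^ (d + 1)) Λ ^ (d + 1))
        ≤ d * (2 * (K0 * (l:ℝ) ^ c0) * (K' * (l:ℝ) ^ c' * (48 * ((256:ℕ):ℝ) * (l:ℝ)) ^ d) *
          (KV * (l:ℝ) ^ cV) ^ (d + 1)) := by
          apply mul_le_mul_of_nonneg_left _ (by positivity)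
          exact mul_le_mul_of_nonneg_left h2 (by positivity)
      _ = (d * (2 * K0 * (K' * (48 * 256) ^ d) * KV ^ (d + 1))) *
          (l:ℝ) ^ (c0 + c' + d + cV * (d + 1)) := by
          rw [mul_pow KV, ← pow_mul (l:ℝ) cV, mul_pow (48 * ((256:ℕ):ℝ)) (l:ℝ) d,
            pow_add (l:ℝ) (c0 + c' + d) (cV * (d + 1)), pow_add (l:ℝ) (c0 + c') d, pow_add (l:ℝ) c0 c']
          push_cast
          ring
      _ ≤ (1 + d * (2 * K0 * (K' * (48 * 256) ^ d) * KV ^ (d + 1))) *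
          (l:ℝ) ^ (c0 + c' + d + cV * (d + 1)) := by
          apply mul_le_mul_of_nonneg_right _ (by positivity)
          linarith only []

end Vale.Agent.P054I
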