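import Vale.Agent.P054.MathlibUsed
import Vale.Agent.P054.H449.IM.KeyA
import Vale.Agent.P054.H438.G.Few
attribute [-instance] ProperSMul.toContinuousSMul IsTopologicalTorsor.toContinuousSMul IdemSemiring.toCanonicallyOrderedAdd IdemSemiring.toMulLeftMono IdemSemiring.toMulRightMono AddQuantale.instAddLeftMono AddQuantale.instAddRightMono Quantale.instMulLeftMono Quantale.instMulRightMono FiniteDimensional.rclike_to_real IsScalarTower.complexToReal FiniteDimensional.complexToReal

set_option linter.all false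
set_option autoImplicit false

open Finset Vale.Agent.P054K Vale.Agent.P054G

namespace Vale.Agent.P054I

section

variable {d : ℕ} {P Q : Finset (EuclideanSpace ℝ (Fin d))} {s x t t1 l I C1 : ℕ}
    {N κ FF K0 K' η : ℝ} {c0 c' : ℕ}
    {F : Fin s → Finset (Finset (EuclideanSpace ℝ (Fin d)))}
    {jp : EuclideanSpace ℝ (Fin d) → ℕ}

theorem Env.TT0 (h : Env P Q s x t t1 l I C1 N κ FF K0 K' η c0 c' F jp) :
    0 ≤ TT d l I C1 c' FF κ (2 * Real.log N + 1) K' := by
  unfold TT
  have h1 := h.VV1
  have h2 : 0 ≤ K' := by linarith only [h.hK']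
  have h3 : 0 ≤ FF := by linarith only [h.FF1]
  have h4 : 0 ≤ VV d l I C1 FF κ (2 * Real.log N + 1) := by linarith only [h1]
  positivity

theorem Env.jlt (h : Env P Q s x t t1 l I C1 N κ FF K0 K' η c0 c' F jp)
    (p : EuclideanSpace ℝ (Fin d)) (hp : p ∈ P) : jp p < l := by
  have hQN : (Q.card : ℝ) ≤ N := le_trans (by exact_mod_cast card_le_card h.hA.hQP) h.hPN
  exact level_lt (jp p) l N h.hN h.h4 ((h.hA.hj1 p hp).trans hQN)

open scoped Classical in
/-- the plain count of all points -/
theorem Env.plain (h : Env P Q s x t t1 l I C1 N κ FF K0 K' η c0 c' F jp) :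
    (P.card : ℝ) * Q.card ≤ l * (TT d l I C1 c' FF κ (2 * Real.log N + 1) K' *
      ((t1:ℝ) ^ (d + 1) / (s:ℝ) ^ 2 + (t1:ℝ) ^ d)) := by
  have hpart : (P.card : ℝ) = ∑ j ∈ range l, ((P.filter (fun p => jp p = j)).card : ℝ) := by
    have h3 : P.card = ∑ j ∈ range l, (P.filter (fun p => jp p = j)).card := by
      apply Finset.card_eq_sum_card_fiberwise
      intro p hp
      rw [mem_coe, mem_range]
      exact h.jlt p hp
    rw [h3]; push_cast; rfl
  rw [hpart, Finset.sum_mul]
  calc ∑ j ∈ range l, ((P.filter (fun p => jp p = j)).card : ℝ) * Q.card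
      ≤ ∑ _j ∈ range l, TT d l I C1 c' FF κ (2 * Real.log N + 1) K' *
      ((t1:ℝ) ^ (d + 1) / (s:ℝ) ^ 2 + (t1:ℝ) ^ d) := by
        apply Finset.sum_le_sum
        intro j _
        exact h.capA j _ (filter_subset _ _) (fun p hp => (mem_filter.mp hp).2)
    _ = _ := by rw [Finset.sum_const, card_range, nsmul_eq_mul]

open scoped Classical in
/-- points with many light pairs, any level -/
theorem Env.capB' (h : Env P Q s x t t1 l I C1 N κ FF K0 K' η c0 c' F jp) (j a : ℕ) :
    ((P.filter (fun p => jp p = j ∧ s * Q.card * 2 ^ j / (2 ^ 26 * κ * l) ≤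
      mass (Jt F a (mu Q.card x η j a)) vv (hyp p))).card : ℝ) * Q.card ≤
      TT d l I C1 c' FF κ (2 * Real.log N + 1) K' *
      ((t1:ℝ) ^ (d + 1) / ((s:ℝ) ^ 2 * η) + (t1:ℝ) ^ d) := by
  have hη0 : 0 < η := by linarith only [h.hη1]
  have hκ0 : 0 < κ := by linarith only [h.hA.hκ1]
  have hl0 : (0:ℝ) < l := by linarith only [h.l1]
  have hs0 : (0:ℝ) < s := by linarith only [h.s1]
  have hq0 : (0:ℝ) < Q.card := by linarith only [h.q1]
  rcases le_or_gt (2 ^ a) x with ha | ha
  · exact h.capB j a (by exact_mod_cast ha) _ (filter_subset _ _)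
      (fun p hp => (mem_filter.mp hp).2.1) (fun p hp => (mem_filter.mp hp).2.2)
  · have h1 : P.filter (fun p => jp p = j ∧ s * Q.card * 2 ^ j / (2 ^ 26 * κ * l) ≤
      mass (Jt F a (mu Q.card x η j a)) vv (hyp p)) = ∅ := by
      rw [Finset.eq_empty_iff_forall_notMem]
      intro p hp
      have h2 := (mem_filter.mp hp).2.2
      have h3 : Jt F a (mu Q.card x η j a) = ∅ := by
        unfold Jt
        rw [Jl_empty P Q s x l t1 I C1 (2 * Real.log N + 1) κ F jp h.hA a ha, filter_empty]
      have h4 : mass (Jt F a (mu Q.card x η j a)) vv (hyp p) = 0 := by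
        rw [h3]; unfold mass; rw [filter_empty, card_empty, Nat.cast_zero]
      rw [h4] at h2
      have h5 : 0 < (s:ℝ) * Q.card * 2 ^ j / (2 ^ 26 * κ * l) := by positivity
      linarith only [h2, h5]
    rw [h1, card_empty]
    simp only [Nat.cast_zero, zero_mul]
    have := h.TT0
    positivity

open scoped Classical in
/-- points on many heavy mirrors, any level -/
theorem Env.capC' (h : Env P Q s x t t1 l I C1 N κ FF K0 K' η c0 c' F jp) (j a : ℕ) :
    ((P.filter (fun p => jp p = j ∧ hh s x η j a <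
      ((rl (Jl F a) (mu Q.card x η j a) p).card : ℝ))).card : ℝ) * Q.card ≤
      TT d l I C1 c' FF κ (2 * Real.log N + 1) K' *
      ((t1:ℝ) ^ (d + 1) / ((s:ℝ) ^ 2 * η) + (t1:ℝ) ^ d) := by
  have hη0 : 0 < η := by linarith only [h.hη1]
  have hs0 : (0:ℝ) < s := by linarith only [h.s1]
  have hx0 : (0:ℝ) < x := by linarith only [h.x1]
  rcases le_or_gt (2 ^ a) x with ha | ha
  · exact h.capC j a (by exact_mod_cast ha) _ (filter_subset _ _)
      (fun p hp => (mem_filter.mp hp).2.1) (fun p hp => (mem_filter.mp hp).2.2)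
  · have h1 : P.filter (fun p => jp p = j ∧ hh s x η j a <
      ((rl (Jl F a) (mu Q.card x η j a) p).card : ℝ)) = ∅ := by
      rw [Finset.eq_empty_iff_forall_notMem]
      intro p hp
      have h2 := (mem_filter.mp hp).2.2
      have h3 : rl (Jl F a) (mu Q.card x η j a) p = ∅ := by
        unfold rl
        rw [Jl_empty P Q s x l t1 I C1 (2 * Real.log N + 1) κ F jp h.hA a ha, filter_empty,
          image_empty]
      rw [h3, card_empty, Nat.cast_zero] at h2
      have h5 : 0 < hh s x η j a := by unfold hh; positivity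
      linarith only [h2, h5]
    rw [h1, card_empty]
    simp only [Nat.cast_zero, zero_mul]
    have := h.TT0
    positivity

end

open scoped Classical in
/-- the count with the local lemma -/
theorem core_count {d : ℕ} {P Q : Finset (EuclideanSpace ℝ (Fin d))} {s x t t1 l I : ℕ}
    {N κ FF K0 K' η : ℝ} {c0 c' : ℕ}
    {F : Fin s → Finset (Finset (EuclideanSpace ℝ (Fin d)))}
    {jp : EuclideanSpace ℝ (Fin d) → ℕ}
    (h : Env P Q s x t t1 l I 256 N κ FF K0 K' η c0 c' F jp)
    (hB : DataB P Q s x l t1 I 256 (2 * Real.log N + 1) κ F jp)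
    (hFew : FewBlocks d) (hTri : TriBlocks d) (hxl : x < 2 ^ l) (hx32 : 32 ≤ x) (x0 Bd : ℝ)
    (hx0 : x0 ≤ x)
    (hloc : ∀ X ⊆ P, ∀ P0 ⊆ P, x0 ≤ X.card → (∀ p ∈ P0, Bad X (256 * (l:ℝ) ^ 2 * η) p) →
      (P0.card : ℝ) ≤ Bd) :
    (P.card : ℝ) ≤ 4 * Bd ∨
    (P.card : ℝ) * Q.card ≤ 4 * (l:ℝ) ^ 2 * (TT d l I 256 c' FF κ (2 * Real.log N + 1) K' *
      ((t1:ℝ) ^ (d + 1) / ((s:ℝ) ^ 2 * η) + (t1:ℝ) ^ d)) := by
  have hη0 : 0 < η := by linarith only [h.hη1]
  have hκ0 : 0 < κ := by linarith only [h.hA.hκ1]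
  have hl1 := h.l1
  have hl0 : (0:ℝ) < l := by linarith only [hl1]
  have hs0 : (0:ℝ) < s := by linarith only [h.s1]
  have hq0 : (0:ℝ) < Q.card := by linarith only [h.q1]
  have hx0' : (0:ℝ) < x := by linarith only [h.x1]
  have hl1N : 1 ≤ l := Nat.one_le_two_pow.trans h.h5
  set BB : ℕ → ℕ → Finset (EuclideanSpace ℝ (Fin d)) := fun j a =>
    P.filter (fun p => jp p = j ∧ s * Q.card * 2 ^ j / (2 ^ 26 * κ * l) ≤
      mass (Jt F a (mu Q.card x η j a)) vv (hyp p)) with hBB
  set CC : ℕ → ℕ → Finset (EuclideanSpace ℝ (Fin d)) := fun j a =>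
    P.filter (fun p => jp p = j ∧ hh s x η j a <
      ((rl (Jl F a) (mu Q.card x η j a) p).card : ℝ)) with hCC
  set R : ℝ := TT d l I 256 c' FF κ (2 * Real.log N + 1) K' *
      ((t1:ℝ) ^ (d + 1) / ((s:ℝ) ^ 2 * η) + (t1:ℝ) ^ d) with hR
  have hR0 : 0 ≤ R := by
    rw [hR]
    have := h.TT0
    positivity
  set Cap : Finset (EuclideanSpace ℝ (Fin d)) :=
    (range l).biUnion (fun j => (range l).biUnion (fun a => BB j a ∪ CC j a)) with hCap
  set H := P.filter (fun p => p ∉ Cap) with hH
  -- number of captured points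
  have hcap : (Cap.card : ℝ) * Q.card ≤ 2 * (l:ℝ) ^ 2 * R := by
    have h1 : Cap.card ≤ ∑ j ∈ range l, ∑ a ∈ range l, ((BB j a).card + (CC j a).card) := by
      rw [hCap]
      refine card_biUnion_le.trans (Finset.sum_le_sum (fun j _ => ?_))
      refine card_biUnion_le.trans (Finset.sum_le_sum (fun a _ => ?_))
      exact card_union_le _ _
    have h2 : (Cap.card : ℝ) ≤ ∑ j ∈ range l, ∑ a ∈ range l,
        (((BB j a).card : ℝ) + ((CC j a).card : ℝ)) := by exact_mod_cast h1
    calc (Cap.card : ℝ) * Q.card ≤ (∑ j ∈ range l, ∑ a ∈ range l,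
        (((BB j a).card : ℝ) + ((CC j a).card : ℝ))) * Q.card :=
          mul_le_mul_of_nonneg_right h2 hq0.le
      _ = ∑ j ∈ range l, ∑ a ∈ range l,
        (((BB j a).card : ℝ) * Q.card + ((CC j a).card : ℝ) * Q.card) := by
          rw [Finset.sum_mul]
          apply Finset.sum_congr rfl
          intro j _
          rw [Finset.sum_mul]
          apply Finset.sum_congr rfl
          intro a _
          ring
      _ ≤ ∑ j ∈ range l, ∑ a ∈ range l, (R + R) := by
          apply Finset.sum_le_sum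
          intro j _
          apply Finset.sum_le_sum
          intro a _
          exact add_le_add (h.capB' j a) (h.capC' j a)
      _ = 2 * (l:ℝ) ^ 2 * R := by
          rw [Finset.sum_const, Finset.sum_const, card_range, nsmul_eq_mul, nsmul_eq_mul]
          ring
  have hsplit : (P.card : ℝ) ≤ H.card + Cap.card := by
    have h1 : P ⊆ H ∪ Cap := by
      intro p hp
      rw [mem_union, hH, mem_filter]
      by_cases h2 : p ∈ Cap
      · exact Or.inr h2
      · exact Or.inl ⟨hp, h2⟩
    have h2 := (card_le_card h1).trans (card_union_le _ _)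
    exact_mod_cast h2
  rcases le_or_gt ((P.card : ℝ)) (2 * H.card) with hbig | hsmall
  · left
    -- the local lemma
    have hBl : 0 < (Bl F).card := by
      have h1 := h.hA.hBlow
      by_contra h0
      have h2 : (Bl F).card = 0 := by omega
      rw [h2, Nat.cast_zero, mul_zero] at h1
      have h3 : 0 < (s:ℝ) * Q.card := by positivity
      linarith only [h1, h3]
    have hgood : ∀ p ∈ H, 8 * ((Bl F).filter
        (fun B => ¬ Bad B.2 (256 * (l:ℝ) ^ 2 * η) p)).card ≤ 3 * (Bl F).card := by
      intro p hp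
      rw [hH, mem_filter] at hp
      obtain ⟨hpP, hpC⟩ := hp
      obtain ⟨j, hj⟩ : ∃ j, j = jp p := ⟨_, rfl⟩
      have hjl : j < l := by rw [hj]; exact h.jlt p hpP
      have h2j : (0:ℝ) < 2 ^ j := by positivity
      have h2j1 : (1:ℝ) ≤ 2 ^ j := one_le_pow₀ (by norm_num)
      have hnot : ∀ a < l, mass (Jt F a (mu Q.card x η j a)) vv (hyp p) <
          s * Q.card * 2 ^ j / (2 ^ 26 * κ * l) ∧
          ((rl (Jl F a) (mu Q.card x η j a) p).card : ℝ) ≤ hh s x η j a := by
        intro a ha
        have h1 : p ∉ BB j a ∪ CC j a := by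
          intro h2
          apply hpC
          rw [hCap, mem_biUnion]
          refine ⟨j, mem_range.mpr hjl, ?_⟩
          rw [mem_biUnion]
          exact ⟨a, mem_range.mpr ha, h2⟩
        rw [mem_union, not_or] at h1
        constructor
        · by_contra h3
          push Not at h3
          apply h1.1
          simp only [hBB]
          rw [mem_filter]
          exact ⟨hpP, hj.symm, h3⟩
        · by_contra h3
          push Not at h3
          apply h1.2
          simp only [hCC]
          rw [mem_filter]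
          exact ⟨hpP, hj.symm, h3⟩
      have hη' : 0 < η / 2 ^ j := by positivity
      have hhe : ∀ a, hh s x η j a = s * (η / 2 ^ j) * 4 ^ a / (x:ℝ) ^ 2 := by
        intro a
        unfold hh
        (clear * - hx0'; field_simp)
      have hk : 256 * (l:ℝ) * (2 * Real.log N + 1) * (η / 2 ^ j) ≤ 256 * (l:ℝ) ^ 2 * η := by
        have h1 : η / 2 ^ j ≤ η := div_le_self hη0.le h2j1
        have h2 : (l:ℝ) * (2 * Real.log N + 1) ≤ l * l := mul_le_mul_of_nonneg_left h.h4 hl0.le
        calc 256 * (l:ℝ) * (2 * Real.log N + 1) * (η / 2 ^ j)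
            = 256 * (((l:ℝ) * (2 * Real.log N + 1)) * (η / 2 ^ j)) := by ring
          _ ≤ 256 * ((l * l) * η) := by
              apply mul_le_mul_of_nonneg_left _ (by norm_num)
              exact mul_le_mul h2 h1 hη'.le (by positivity)
          _ = _ := by ring
      have hpin' : (P.image (dist p)).card ≤ t1 := by
        rw [h.ht1]; exact h.hpin p hpP
      rcases lt_or_ge ((2:ℝ) ^ j) (3072 * κ) with hjs | hjb
      · have h1 := hFew P Q s x l t1 I (2 * Real.log N + 1) κ F jp h.hA hl1N hxl hx32 (η / 2 ^ j)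
          (fun a => mu Q.card x η j a) hη' p hpP hpin'
          (fun a ha => by
            have h2 := (hnot a ha).2
            rw [hhe a] at h2
            exact h2)
          (fun a ha => by
            refine (hnot a ha).1.le.trans ?_
            rw [div_le_div_iff₀ (by positivity) (by positivity)]
            have h3 : (2:ℝ) ^ j * 1024 ≤ 2 ^ 26 * κ := by
              have : (2:ℝ) ^ j * 1024 ≤ 3072 * κ * 1024 := mul_le_mul_of_nonneg_right hjs.le (by norm_num)
              linarith only [this, hκ0]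
            calc (s:ℝ) * Q.card * 2 ^ j * (1024 * l) = (s * Q.card * l) * (2 ^ j * 1024) := by ring
              _ ≤ (s * Q.card * l) * (2 ^ 26 * κ) := mul_le_mul_of_nonneg_left h3 (by positivity)
              _ = _ := by ring)
        refine le_trans (Nat.mul_le_mul_left 8 (card_le_card ?_)) h1
        intro B hB'
        rw [mem_filter] at hB' ⊢
        refine ⟨hB'.1, fun h2 => hB'.2 ?_⟩
        have h3 : (x:ℝ) = B.2.card := by
          have h4 := hB'.1
          unfold Bl at h4
          rw [mem_sigma] at h4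
          rw [h.hA.hFcard B.1 B.2 h4.2]
        rw [h3] at h2
        exact Bad_mono (fewM_bad B.2 _ p h2) hk
      · have h1 := hTri P Q s x l t1 I 256 (2 * Real.log N + 1) κ F jp hB hl1N hxl (η / 2 ^ j)
          (fun a => mu Q.card x η j a) hη' p hpP (by rw [← hj]; exact hjb)
          (fun a ha => by
            have h2 := (hnot a ha).2
            rw [hhe a] at h2
            exact h2)
          (fun a ha => by
            rw [← hj]
            exact (hnot a ha).1.le)
        refine le_trans (Nat.mul_le_mul_left 8 (card_le_card ?_)) h1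
        intro B hB'
        rw [mem_filter] at hB' ⊢
        exact ⟨hB'.1, fun h2 => hB'.2 (Bad_mono h2 hk)⟩
    obtain ⟨B, hBB', hBH⟩ := exists_block (Bl F) H (fun B p => Bad B.2 (256 * (l:ℝ) ^ 2 * η) p)
      hBl hgood
    have hB2 : B.2 ∈ F B.1 := by
      unfold Bl at hBB'
      rw [mem_sigma] at hBB'
      exact hBB'.2
    have h1 := hloc B.2 ((h.hA.hFsub B.1 B.2 hB2).trans h.hA.hQP)
      (H.filter (fun p => Bad B.2 (256 * (l:ℝ) ^ 2 * η) p))
      ((filter_subset _ _).trans (filter_subset _ _))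
      (by rw [h.hA.hFcard B.1 B.2 hB2]; exact hx0) (fun p hp => (mem_filter.mp hp).2)
    have h2 : (H.card : ℝ) ≤ 2 * (H.filter (fun p => Bad B.2 (256 * (l:ℝ) ^ 2 * η) p)).card := by
      exact_mod_cast hBH
    linarith only [h1, h2, hbig]
  · right
    have h1 : (P.card : ℝ) ≤ 2 * Cap.card := by linarith only [hsplit, hsmall]
    calc (P.card : ℝ) * Q.card ≤ (2 * Cap.card) * Q.card := mul_le_mul_of_nonneg_right h1 hq0.le
      _ = 2 * (Cap.card * Q.card) := by ring
      _ ≤ 2 * (2 * (l:ℝ) ^ 2 * R) := mul_le_mul_of_nonneg_left hcap (by norm_num)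
      _ = 4 * (l:ℝ) ^ 2 * R := by ring

end Vale.Agent.P054I
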