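import Vale.Agent.P054.MathlibUsed
import Vale.Agent.P054.H449.IM.KeyB
import Vale.Agent.P054.H438.G.ElimH
attribute [-instance] ProperSMul.toContinuousSMul IsTopologicalTorsor.toContinuousSMul IdemSemiring.toCanonicallyOrderedAdd IdemSemiring.toMulLeftMono IdemSemiring.toMulRightMono AddQuantale.instAddLeftMono AddQuantale.instAddRightMono Quantale.instMulLeftMono Quantale.instMulRightMono FiniteDimensional.rclike_to_real IsScalarTower.complexToReal FiniteDimensional.complexToReal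

set_option linter.all false
set_option autoImplicit false

open Finset Vale.Agent.P054K Vale.Agent.P054G

namespace Vale.Agent.P054I

/-- absorption of constants -/
theorem absorb3 (X K l : ℝ) (Y : ℝ) (y c : ℕ) (hX : 0 ≤ X) (hXK : X ≤ K) (hl : 1 ≤ l) (hY : 0 ≤ Y)
    (hy : y ≤ c) : X * l ^ y * Y ≤ K * l ^ c * Y := by
  have h1 : l ^ y ≤ l ^ c := pow_le_pow_right₀ hl hy
  exact mul_le_mul_of_nonneg_right (mul_le_mul hXK h1 (by positivity) (hX.trans hXK)) hY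

theorem lt_two_pow_of_log (x : ℕ) (l : ℕ) (Y : ℝ) (hl : 1 ≤ l) (hx : (x:ℝ) ≤ Y)
    (h : 20 * (Real.log (Y + 3) + 1) ≤ l) : x < 2 ^ l := by
  have hY : 0 ≤ Y := le_trans (Nat.cast_nonneg _) hx
  have h1 : (x:ℝ) < Real.exp (l * Real.log 2) := by
    have h2 : (x:ℝ) < Y + 3 := by linarith only [hx]
    have h3 : Y + 3 = Real.exp (Real.log (Y + 3)) := (Real.exp_log (by linarith only [hY])).symm
    rw [h3] at h2
    refine lt_of_lt_of_le h2 (Real.exp_le_exp.mpr ?_)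
    have h4 : Real.log (Y + 3) ≤ l / 20 := by linarith only [h]
    have h5 := Real.log_two_gt_d9
    have h6 : (0:ℝ) ≤ l := by positivity
    nlinarith only [h4, h5, h6]
  rw [mul_comm, ← Real.rpow_def_of_pos (by norm_num), Real.rpow_natCast] at h1
  exact_mod_cast h1

open scoped Classical in
theorem keyX_of (d : ℕ) (hd : 2 ≤ d) (hU : HasDataB d) (hF : FewBlocks d) (hT : TriBlocks d)
    (hL : LightProp d) : ∃ (K : ℝ) (c A : ℕ), 1 ≤ K ∧ KeyX d K c A := by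
  obtain ⟨K0, c0, hK0, hET⟩ := et_uniform d
  obtain ⟨K', c', hK', hL1⟩ := L1_all d
  obtain ⟨KT, cT, hKT, hTT⟩ := const_TT d c0 c' K0 K' hK0 hK'
  -- constants
  obtain ⟨X1, hX1⟩ : ∃ X : ℝ, X = 2 ^ 17 * 256 := ⟨_, rfl⟩
  obtain ⟨KS, hKS⟩ : ∃ KS : ℝ, KS = K0 ^ (d + 2) * (2 ^ 29 * (2 * 5 ^ (d + 1))) := ⟨_, rfl⟩
  obtain ⟨cS, hcS⟩ : ∃ cS : ℕ, cS = c0 * (d + 2) + (d + 1) + 2 := ⟨_, rfl⟩
  obtain ⟨X2, hX2⟩ : ∃ X : ℝ, X = 2 ^ 15 * 3 ^ d * 256 * KS ^ (d - 1) := ⟨_, rfl⟩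
  obtain ⟨X3, hX3⟩ : ∃ X : ℝ, X = 2048 * KT := ⟨_, rfl⟩
  obtain ⟨X4, hX4⟩ : ∃ X : ℝ, X = 8 * KT := ⟨_, rfl⟩
  obtain ⟨X5, hX5⟩ : ∃ X : ℝ, X = (8 * KT) ^ (d - 1) * (2 ^ 15 * 3 ^ d * 256) ^ 2 := ⟨_, rfl⟩
  have hKS0 : 0 ≤ KS := by rw [hKS]; positivity
  have hX1p : 0 ≤ X1 := by rw [hX1]; positivity
  have hX2p : 0 ≤ X2 := by rw [hX2]; positivity
  have hX3p : 0 ≤ X3 := by rw [hX3]; positivity
  have hX4p : 0 ≤ X4 := by rw [hX4]; positivity
  have hX5p : 0 ≤ X5 := by rw [hX5]; positivity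
  obtain ⟨K, hK⟩ : ∃ K : ℝ, K = 1 + X1 + X2 + X3 + X4 + X5 := ⟨_, rfl⟩
  obtain ⟨c, hc⟩ : ∃ c : ℕ, c = 3 + (d + 3 + cS * (d - 1)) + (2 + cT) + (3 + cT) +
    ((3 + cT) * (d - 1) + 2 * (d + 3)) := ⟨_, rfl⟩
  obtain ⟨A, hA⟩ : ∃ A : ℕ, A = 2 ^ 25 * 5 ^ d := ⟨_, rfl⟩
  have hA256 : 256 ≤ A := by
    rw [hA]
    have : 1 ≤ 5 ^ d := Nat.one_le_pow _ _ (by norm_num)
    calc 256 ≤ 2 ^ 25 * 1 := by norm_num
      _ ≤ 2 ^ 25 * 5 ^ d := Nat.mul_le_mul_left _ this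
  have hA256R : (256:ℝ) ≤ A := by exact_mod_cast hA256
  refine ⟨K, c, A, by rw [hK]; linarith only [hX1p, hX2p, hX3p, hX4p, hX5p], ?_⟩
  intro P t t1 l I N η x0 Bd ht1 hpin hN h4 h5 h6 h7 h8 h9 hflat hη1 hx01 hloc htop
  obtain ⟨Λ, hΛd⟩ : ∃ Λ, Λ = 2 * Real.log N + 1 := ⟨_, rfl⟩
  have hlogN : 0 ≤ Real.log N := Real.log_nonneg hN
  have hΛ1 : 1 ≤ Λ := by rw [hΛd]; linarith only [hlogN]
  have hΛ0 : 0 < Λ := by linarith only [hΛ1]
  have htR : (1:ℝ) ≤ t1 := by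
    rw [ht1]; push_cast; have : (0:ℝ) ≤ t := by (clear * -; positivity)
    linarith only []
  have ht0 : (0:ℝ) < t1 := by linarith only [htR]
  have ht1n : 1 ≤ t1 := by omega
  have hl1 : 1 ≤ l := Nat.one_le_two_pow.trans h5
  have hlR : (1:ℝ) ≤ l := by exact_mod_cast hl1
  have hl0 : (0:ℝ) < l := by linarith only [hlR]
  have hΛl : Λ ≤ l := by rw [hΛd]; exact h4
  have hIl : (2:ℝ) ^ I ≤ l := by
    have h5R : (2:ℝ) ^ (I + 1) ≤ l := by exact_mod_cast h5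
    have : (2:ℝ) ^ (I + 1) = 2 * 2 ^ I := by ring
    rw [this] at h5R
    have h2 : (0:ℝ) < 2 ^ I := by positivity
    linarith only [h5R]
  have hn0 : (0:ℝ) ≤ P.card := by (clear * -; positivity)
  have hη0 : 0 < η := by linarith only [hη1]
  by_cases hbig : 2 ^ (2 * I + 17) * (2 * Real.log N + 1) * (((256 * t1 : ℕ)) : ℝ) < P.card
  swap
  · left
    push Not at hbig
    rw [← hΛd] at hbig
    have h1 : (2:ℝ) ^ (2 * I + 17) * Λ ≤ 2 ^ 17 * (l:ℝ) ^ 3 := by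
      have e2 : (2:ℝ) ^ (2 * I + 17) = 2 ^ 17 * (2 ^ I) ^ 2 := by rw [← pow_mul]; ring
      rw [e2]
      have e3 : ((2:ℝ) ^ I) ^ 2 ≤ (l:ℝ) ^ 2 := pow_le_pow_left₀ (by positivity) hIl 2
      calc 2 ^ 17 * ((2:ℝ) ^ I) ^ 2 * Λ ≤ 2 ^ 17 * (l:ℝ) ^ 2 * l := by
            apply mul_le_mul _ hΛl hΛ0.le (by positivity)
            linarith only [e3]
        _ = 2 ^ 17 * (l:ℝ) ^ 3 := by ring
    have h2 : (P.card : ℝ) ≤ X1 * (l:ℝ) ^ 3 * t1 := by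
      refine hbig.trans ?_
      calc 2 ^ (2 * I + 17) * Λ * (((256 * t1 : ℕ)) : ℝ) ≤ 2 ^ 17 * (l:ℝ) ^ 3 * (((256 * t1 : ℕ)) : ℝ) :=
            mul_le_mul_of_nonneg_right h1 (by positivity)
        _ = X1 * (l:ℝ) ^ 3 * t1 := by rw [hX1]; push_cast; ring
    exact h2.trans (absorb3 _ _ _ _ _ _ hX1p
      (by rw [hK]; linarith only [hX1p, hX2p, hX3p, hX4p, hX5p]) hlR ht0.le (by rw [hc]; omega))
  -- the data
  obtain ⟨κ, hκd⟩ : ∃ κ : ℝ, κ = 2 * (5 * (l:ℝ)) ^ (d + 1) := ⟨_, rfl⟩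
  have hPpos : (0:ℝ) < P.card := lt_of_le_of_lt (by (clear * - hlogN; positivity)) hbig
  have hP : P.Nonempty := by rw [← card_pos]; exact_mod_cast hPpos
  have hn1 : (1:ℝ) ≤ P.card := by exact_mod_cast hP.card_pos
  have hPN : (P.card : ℝ) ≤ N := by nlinarith only [h7, hn1]
  have hcast : (((256 * t1 : ℕ)) : ℝ) = 256 * t1 := by push_cast; ring
  have h6' : 16 * (2 * Real.log N + 1) * ((((256 * t1 : ℕ)) : ℝ) + 2) ≤ (l:ℝ) ^ I := by
    refine le_trans ?_ h6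
    rw [hcast, ← hΛd]
    apply mul_le_mul_of_nonneg_left _ (by positivity)
    have := mul_le_mul_of_nonneg_right hA256R ht0.le
    linarith only [this]
  have h6'' : 16 * (2 * Real.log N + 1) * ((t1:ℝ) + 2) ≤ (l:ℝ) ^ I := by
    refine le_trans ?_ h6'
    rw [hcast, ← hΛd]
    apply mul_le_mul_of_nonneg_left _ (by positivity)
    linarith only [ht0]
  have hgd : ∀ s : ℕ, 16 * (2 * Real.log N + 1) * ((((256 * t1 : ℕ)) : ℝ) + 2) ≤ s →
      ¬ Gd P P (S2 P) rng s 2 := by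
    intro s hs
    apply htop s
    refine le_trans ?_ hs
    rw [hcast, ← hΛd]
    apply mul_le_mul_of_nonneg_left _ (by positivity)
    linarith only [ht0]
  obtain ⟨s, x, Q, F, jp, hB⟩ := hU 256 P t1 l I N κ (by norm_num) ht1n
    (fun p hp => by rw [ht1]; exact hpin p hp) hN h4 h5 h6' h7 hbig hκd hgd
  have hDA := hB.toA
  have hs1 : (1:ℝ) ≤ s := by exact_mod_cast hDA.hs1
  have hs0 : (0:ℝ) < s := by linarith only [hs1]
  have hx8 : (8:ℝ) ≤ x := by exact_mod_cast hDA.hx8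
  have hx0' : (0:ℝ) < x := by linarith only [hx8]
  have hq1 : (1:ℝ) ≤ Q.card := by exact_mod_cast hDA.hQne.card_pos
  have hq0 : (0:ℝ) < Q.card := by linarith only [hq1]
  have hQN : (Q.card : ℝ) ≤ N := le_trans (by exact_mod_cast card_le_card hDA.hQP) hPN
  have hκ0 : 0 < κ := by rw [hκd]; positivity
  obtain ⟨FF, hFF⟩ : ∃ FF : ℝ, FF = K0 * (l:ℝ) ^ c0 := ⟨_, rfl⟩
  have hFF1 : 1 ≤ FF := by
    rw [hFF]; exact one_le_mul_of_one_le_of_one_le hK0 (one_le_pow₀ hlR)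
  have hFF0 : 0 < FF := by linarith only [hFF1]
  have hcell : (P.card : ℝ) ≤ (2 ^ 15 * 3 ^ d * 256) * (l:ℝ) ^ (d + 3) * t1 * (s:ℝ) ^ (d - 1) := by
    have h1 := hDA.hcell
    refine h1.trans (le_of_eq ?_)
    push_cast
    ring
  -- small scale
  by_cases hsbig : FF ^ (d + 2) * (2 ^ 29 * κ * l * (2 * Real.log N + 1)) < s
  swap
  · left
    push Not at hsbig
    rw [← hΛd] at hsbig
    have h1 : (s:ℝ) ≤ KS * (l:ℝ) ^ cS := by
      refine hsbig.trans ?_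
      calc FF ^ (d + 2) * (2 ^ 29 * κ * l * Λ) ≤ FF ^ (d + 2) * (2 ^ 29 * κ * l * l) := by
            apply mul_le_mul_of_nonneg_left _ (by positivity)
            exact mul_le_mul_of_nonneg_left hΛl (by positivity)
        _ = KS * (l:ℝ) ^ cS := by
            rw [hFF, hκd, hKS, hcS, mul_pow K0, mul_pow 5 (l:ℝ), ← pow_mul,
              pow_add (l:ℝ) (c0 * (d + 2) + (d + 1)) 2, pow_add (l:ℝ) (c0 * (d + 2)) (d + 1)]
            ring
    have h2 : (s:ℝ) ^ (d - 1) ≤ (KS * (l:ℝ) ^ cS) ^ (d - 1) := pow_le_pow_left₀ hs0.le h1 _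
    have h3 : (P.card : ℝ) ≤ X2 * (l:ℝ) ^ (d + 3 + cS * (d - 1)) * t1 := by
      refine hcell.trans ((mul_le_mul_of_nonneg_left h2 (by positivity)).trans (le_of_eq ?_))
      rw [hX2, mul_pow KS, ← pow_mul, pow_add (l:ℝ) (d + 3)]
      ring
    exact h3.trans (absorb3 _ _ _ _ _ _ hX2p
      (by rw [hK]; linarith only [hX1p, hX2p, hX3p, hX4p, hX5p]) hlR ht0.le (by rw [hc]; omega))
  -- η larger than Q
  by_cases hηQ : η ≤ Q.card
  swap
  · right; right; right; right; right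
    push Not at hηQ
    have h1 : (P.card : ℝ) ≤ 1 * (l:ℝ) ^ 1 * η := by
      rw [one_mul, pow_one]
      exact hDA.hPQ.trans (mul_le_mul_of_nonneg_left hηQ.le hl0.le)
    exact h1.trans (absorb3 _ _ _ _ _ _ (by norm_num)
      (by rw [hK]; linarith only [hX1p, hX2p, hX3p, hX4p, hX5p]) hlR hη0.le (by rw [hc]; omega))
  -- logarithms
  have hxs : (x:ℝ) * s ≤ 2 ^ 22 * (l:ℝ) ^ 2 * t1 := by
    have h1 := hDA.hxup
    rw [le_div_iff₀ hs0, ← hΛd] at h1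
    refine h1.trans ?_
    have h2 : (2:ℝ) ^ (I + 14) * Λ ≤ 2 ^ 14 * ((l:ℝ) * l) := by
      rw [pow_add]
      calc (2:ℝ) ^ I * 2 ^ 14 * Λ = 2 ^ 14 * (2 ^ I * Λ) := by ring
        _ ≤ 2 ^ 14 * ((l:ℝ) * l) := by
            apply mul_le_mul_of_nonneg_left _ (by positivity)
            exact mul_le_mul hIl hΛl hΛ0.le (by positivity)
    calc (2:ℝ) ^ (I + 14) * Λ * (((256:ℕ):ℝ) * t1) ≤ 2 ^ 14 * ((l:ℝ) * l) * (((256:ℕ):ℝ) * t1) :=
          mul_le_mul_of_nonneg_right h2 (by positivity)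
      _ = 2 ^ 22 * (l:ℝ) ^ 2 * t1 := by push_cast; ring
  have hAR : (A:ℝ) = 2 ^ 25 * 5 ^ d := by rw [hA]; push_cast; ring
  have h5d : (1:ℝ) ≤ 5 ^ d := one_le_pow₀ (by norm_num)
  have hY1 : 8 * 5 ^ d * ((s:ℝ) * Q.card * x) ≤ A * N * (l:ℝ) ^ 2 * t1 := by
    calc 8 * 5 ^ d * ((s:ℝ) * Q.card * x) = (8 * 5 ^ d * Q.card) * (x * s) := by ring
      _ ≤ (8 * 5 ^ d * Q.card) * (2 ^ 22 * (l:ℝ) ^ 2 * t1) := mul_le_mul_of_nonneg_left hxs (by positivity)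
      _ = (2 ^ 25 * 5 ^ d * (l:ℝ) ^ 2 * t1) * Q.card := by ring
      _ ≤ (2 ^ 25 * 5 ^ d * (l:ℝ) ^ 2 * t1) * N := mul_le_mul_of_nonneg_left hQN (by positivity)
      _ = _ := by rw [hAR]; ring
  have hlog : 20 * (Real.log (8 * 5 ^ d * (s * Q.card * x) + 3) + 1) ≤ l := by
    refine le_trans ?_ h9
    have h1 := Real.log_le_log (show (0:ℝ) < 8 * 5 ^ d * (s * Q.card * x) + 3 by positivity)
      (show 8 * 5 ^ d * ((s:ℝ) * Q.card * x) + 3 ≤ A * N * (l:ℝ) ^ 2 * t1 + 3 by linarith only [hY1])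
    linarith only [h1]
  have hxl : x < 2 ^ l := by
    apply lt_two_pow_of_log x l (A * N * (l:ℝ) ^ 2 * t1) hl1 _ h9
    refine le_trans ?_ hY1
    have h1 : (x:ℝ) * 1 ≤ x * (8 * 5 ^ d * (s * Q.card)) := by
      apply mul_le_mul_of_nonneg_left _ hx0'.le
      have h2 : (1:ℝ) ≤ 8 * 5 ^ d := one_le_mul_of_one_le_of_one_le (by norm_num) h5d
      exact one_le_mul_of_one_le_of_one_le h2 (one_le_mul_of_one_le_of_one_le hs1 hq1)
    linarith only [h1]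
  have hEnv : Env P Q s x t t1 l I 256 N κ FF K0 K' η c0 c' F jp :=
    ⟨hd, hK0, hET, hK', hL1, hL, hDA, ht1, hpin, hN, h4, h5, h6'', by norm_num, hPN, h8, hflat, hFF,
      hη1, hηQ, hsbig, hlog⟩
  have hTT' : TT d l I 256 c' FF κ (2 * Real.log N + 1) K' ≤ KT * (l:ℝ) ^ cT := by
    have h1 := hTT l I (2 * Real.log N + 1) hlR (by rw [← hΛd]; exact hΛ1) h4 hIl
    rw [← hFF, ← hκd] at h1
    exact h1
  have hTT0 := hEnv.TT0
  have hsq : (P.card : ℝ) ^ 2 ≤ l * (P.card * Q.card) := by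
    rw [sq]
    calc (P.card : ℝ) * P.card ≤ P.card * (l * Q.card) := mul_le_mul_of_nonneg_left hDA.hPQ hn0
      _ = _ := by ring
  -- small blocks
  by_cases hxbig : 32 ≤ x ∧ x0 ≤ x
  swap
  · have hxle : (x:ℝ) ≤ 32 * x0 := by
      rw [not_and_or] at hxbig
      rcases hxbig with h1 | h1
      · have h2 : x ≤ 32 := by omega
        have h3 : (x:ℝ) ≤ 32 := by exact_mod_cast h2
        linarith only [h3, hx01]
      · push Not at h1
        linarith only [h1, hx01]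
    have hts : (t1:ℝ) / s ≤ x := by
      have h1 := hDA.hxlow
      rw [← hΛd] at h1
      refine le_trans ?_ h1
      have e1 : 1024 * (Λ / s) * (((256:ℕ):ℝ) * t1) = (262144 * Λ) * (t1 / s) := by push_cast; ring
      rw [e1]
      exact le_mul_of_one_le_left (by positivity) (by linarith only [hΛ1])
    have hd1 : (t1:ℝ) ^ (d + 1) / (s:ℝ) ^ 2 ≤ 1024 * (x0 ^ 2 * (t1:ℝ) ^ (d - 1)) := by
      have e1 : (t1:ℝ) ^ (d + 1) / (s:ℝ) ^ 2 = (t1 / s) ^ 2 * (t1:ℝ) ^ (d - 1) := by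
        rw [div_pow, show d + 1 = (d - 1) + 2 by omega, pow_add]
        field_simp
      have e2 : ((t1:ℝ) / s) ^ 2 ≤ (32 * x0) ^ 2 := pow_le_pow_left₀ (by positivity) (hts.trans hxle) 2
      rw [e1]
      calc ((t1:ℝ) / s) ^ 2 * (t1:ℝ) ^ (d - 1) ≤ (32 * x0) ^ 2 * (t1:ℝ) ^ (d - 1) :=
            mul_le_mul_of_nonneg_right e2 (by positivity)
        _ = _ := by ring
    have h1 : (P.card : ℝ) ^ 2 ≤ (KT * (l:ℝ) ^ (2 + cT)) *
        (1024 * (x0 ^ 2 * (t1:ℝ) ^ (d - 1)) + (t1:ℝ) ^ d) := by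
      calc (P.card : ℝ) ^ 2 ≤ l * (P.card * Q.card) := hsq
        _ ≤ l * (l * (TT d l I 256 c' FF κ (2 * Real.log N + 1) K' *
            ((t1:ℝ) ^ (d + 1) / (s:ℝ) ^ 2 + (t1:ℝ) ^ d))) :=
            mul_le_mul_of_nonneg_left hEnv.plain hl0.le
        _ ≤ l * (l * ((KT * (l:ℝ) ^ cT) *
            (1024 * (x0 ^ 2 * (t1:ℝ) ^ (d - 1)) + (t1:ℝ) ^ d))) := by
            apply mul_le_mul_of_nonneg_left _ hl0.le
            apply mul_le_mul_of_nonneg_left _ hl0.le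
            apply mul_le_mul hTT' _ (by positivity) (by positivity)
            linarith only [hd1]
        _ = _ := by rw [pow_add (l:ℝ) 2 cT]; ring
    rcases le_total ((t1:ℝ) ^ d) (1024 * (x0 ^ 2 * (t1:ℝ) ^ (d - 1))) with h2 | h2
    · right; right; right; left
      have h3 : (P.card : ℝ) ^ 2 ≤ X3 * (l:ℝ) ^ (2 + cT) * (x0 ^ 2 * (t1:ℝ) ^ (d - 1)) := by
        refine h1.trans ?_
        have h4' : (KT * (l:ℝ) ^ (2 + cT)) * (1024 * (x0 ^ 2 * (t1:ℝ) ^ (d - 1)) + (t1:ℝ) ^ d) ≤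
            (KT * (l:ℝ) ^ (2 + cT)) * (2048 * (x0 ^ 2 * (t1:ℝ) ^ (d - 1))) :=
          mul_le_mul_of_nonneg_left (by linarith only [h2]) (by positivity)
        refine h4'.trans (le_of_eq ?_)
        rw [hX3]; ring
      exact h3.trans (absorb3 _ _ _ _ _ _ hX3p
        (by rw [hK]; linarith only [hX1p, hX2p, hX3p, hX4p, hX5p]) hlR (by positivity)
        (by rw [hc]; omega))
    · right; left
      have h3 : (P.card : ℝ) ^ 2 ≤ X4 * (l:ℝ) ^ (2 + cT) * (t1:ℝ) ^ d := by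
        refine h1.trans ?_
        have h4' : (KT * (l:ℝ) ^ (2 + cT)) * (1024 * (x0 ^ 2 * (t1:ℝ) ^ (d - 1)) + (t1:ℝ) ^ d) ≤
            (KT * (l:ℝ) ^ (2 + cT)) * (8 * (t1:ℝ) ^ d) := by
          apply mul_le_mul_of_nonneg_left _ (by positivity)
          have : (0:ℝ) ≤ (t1:ℝ) ^ d := by positivity
          linarith only [h2, this]
        refine h4'.trans (le_of_eq ?_)
        rw [hX4]; ring
      exact h3.trans (absorb3 _ _ _ _ _ _ hX4p
        (by rw [hK]; linarith only [hX1p, hX2p, hX3p, hX4p, hX5p]) hlR (by positivity)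
        (by rw [hc]; omega))
  · rcases core_count hEnv hB hF hT hxl hxbig.1 x0 Bd hxbig.2 hloc with h | h
    · right; right; right; right; left
      exact h
    · have h1 : (P.card : ℝ) ^ 2 ≤ (4 * KT * (l:ℝ) ^ (3 + cT)) *
          ((t1:ℝ) ^ (d + 1) / ((s:ℝ) ^ 2 * η) + (t1:ℝ) ^ d) := by
        calc (P.card : ℝ) ^ 2 ≤ l * (P.card * Q.card) := hsq
          _ ≤ l * (4 * (l:ℝ) ^ 2 * (TT d l I 256 c' FF κ (2 * Real.log N + 1) K' *
              ((t1:ℝ) ^ (d + 1) / ((s:ℝ) ^ 2 * η) + (t1:ℝ) ^ d))) :=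
              mul_le_mul_of_nonneg_left h hl0.le
          _ ≤ l * (4 * (l:ℝ) ^ 2 * ((KT * (l:ℝ) ^ cT) *
              ((t1:ℝ) ^ (d + 1) / ((s:ℝ) ^ 2 * η) + (t1:ℝ) ^ d))) := by
              apply mul_le_mul_of_nonneg_left _ hl0.le
              apply mul_le_mul_of_nonneg_left _ (by positivity)
              exact mul_le_mul_of_nonneg_right hTT' (by positivity)
          _ = _ := by rw [pow_add (l:ℝ) 3 cT]; ring
      have hW1 : 1 ≤ 4 * KT * (l:ℝ) ^ (3 + cT) :=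
        one_le_mul_of_one_le_of_one_le (by linarith only [hKT]) (one_le_pow₀ hlR)
      have hV1 : (1:ℝ) ≤ (2 ^ 15 * 3 ^ d * 256) * (l:ℝ) ^ (d + 3) := by
        have h3d : (1:ℝ) ≤ 3 ^ d := one_le_pow₀ (by norm_num)
        exact one_le_mul_of_one_le_of_one_le
          (one_le_mul_of_one_le_of_one_le (one_le_mul_of_one_le_of_one_le (by norm_num) h3d)
            (by norm_num)) (one_le_pow₀ hlR)
      have h2 := elimH d (by omega) P.card (4 * KT * (l:ℝ) ^ (3 + cT))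
        ((2 ^ 15 * 3 ^ d * 256) * (l:ℝ) ^ (d + 3)) t1 s η hn0 hW1 hV1 htR hs1 hη1 hcell h1
      rcases h2 with h3 | h3
      · right; left
        refine h3.trans ?_
        have e1 : 2 * (4 * KT * (l:ℝ) ^ (3 + cT)) * (t1:ℝ) ^ d = X4 * (l:ℝ) ^ (3 + cT) * (t1:ℝ) ^ d := by
          rw [hX4]; ring
        rw [e1]
        exact absorb3 _ _ _ _ _ _ hX4p
          (by rw [hK]; linarith only [hX1p, hX2p, hX3p, hX4p, hX5p]) hlR (by positivity)
          (by rw [hc]; omega)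
      · right; right; left
        refine h3.trans ?_
        have e1 : (2 * (4 * KT * (l:ℝ) ^ (3 + cT))) ^ (d - 1) *
            ((2 ^ 15 * 3 ^ d * 256) * (l:ℝ) ^ (d + 3)) ^ 2 * (t1:ℝ) ^ (d ^ 2 + 1) =
            X5 * (l:ℝ) ^ ((3 + cT) * (d - 1) + 2 * (d + 3)) * (t1:ℝ) ^ (d ^ 2 + 1) := by
          rw [hX5, show 2 * (4 * KT * (l:ℝ) ^ (3 + cT)) = (8 * KT) * (l:ℝ) ^ (3 + cT) by ring,
            mul_pow (8 * KT), ← pow_mul (l:ℝ) (3 + cT), mul_pow (2 ^ 15 * 3 ^ d * 256) ((l:ℝ) ^ (d + 3)) 2,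
            ← pow_mul (l:ℝ) (d + 3) 2, pow_add (l:ℝ) ((3 + cT) * (d - 1)), mul_comm (d + 3) 2]
          ring
        rw [e1]
        exact absorb3 _ _ _ _ _ _ hX5p
          (by rw [hK]; linarith only [hX1p, hX2p, hX3p, hX4p, hX5p]) hlR (by positivity)
          (by rw [hc]; omega)

end Vale.Agent.P054I
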