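import Vale.Agent.P054.MathlibUsed
import Vale.Agent.P054.H449.IM.KeyX
attribute [-instance] ProperSMul.toContinuousSMul IsTopologicalTorsor.toContinuousSMul IdemSemiring.toCanonicallyOrderedAdd IdemSemiring.toMulLeftMono IdemSemiring.toMulRightMono AddQuantale.instAddLeftMono AddQuantale.instAddRightMono Quantale.instMulLeftMono Quantale.instMulRightMono FiniteDimensional.rclike_to_real IsScalarTower.complexToReal FiniteDimensional.complexToReal

set_option linter.all false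
set_option autoImplicit false

open Finset Vale.Agent.P054K Vale.Agent.P054G

namespace Vale.Agent.P054I

/-- the key inequality with the scale `s` and the block size `x` visible; `η` and `Bd` may depend
on them -/
def KeyY (d : ℕ) (K : ℝ) (c A : ℕ) : Prop :=
  open scoped Classical in
  ∀ (P : Finset (EuclideanSpace ℝ (Fin d))) (t t1 l I : ℕ) (N : ℝ), t1 = t + 1 →
    (∀ p ∈ P, (P.image (dist p)).card ≤ t + 1) → 1 ≤ N → 2 * Real.log N + 1 ≤ l →
    2 ^ (I + 1) ≤ l → 16 * (2 * Real.log N + 1) * (A * (t1:ℝ) + 2) ≤ (l:ℝ) ^ I →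
    2 * (P.card : ℝ) ^ 2 ≤ N → (P.card : ℝ) * (t1:ℝ) ≤ N →
    20 * (Real.log (A * N * (l:ℝ) ^ 2 * (t1:ℝ) + 3) + 1) ≤ l →
    (∀ j < d, PinnedBy j t (l * (t1:ℝ) ^ j)) →
    (∀ s : ℕ, 16 * (2 * Real.log N + 1) * ((t1:ℝ) + 2) ≤ s → ¬ Gd P P (S2 P) rng s 2) →
    (P.card : ℝ) ≤ K * (l:ℝ) ^ c * t1 ∨
    ∃ s x : ℕ, 1 ≤ s ∧ 1 ≤ x ∧
      (P.card : ℝ) ≤ K * (l:ℝ) ^ c * (t1 * (s:ℝ) ^ (d - 1)) ∧
      (x:ℝ) * s ≤ K * (l:ℝ) ^ c * t1 ∧ (t1:ℝ) ≤ x * s ∧
      (P.card : ℝ) ^ 2 ≤ K * (l:ℝ) ^ c * ((t1:ℝ) ^ (d + 1) / (s:ℝ) ^ 2 + (t1:ℝ) ^ d) ∧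
      ∀ η Bd : ℝ, 1 ≤ η → 32 ≤ x →
        (∀ X ⊆ P, ∀ P0 ⊆ P, X.card = x → (∀ p ∈ P0, Bad X (256 * (l:ℝ) ^ 2 * η) p) →
          (P0.card : ℝ) ≤ Bd) →
        (P.card : ℝ) ≤ 4 * Bd ∨ (P.card : ℝ) ≤ l * η ∨
        (P.card : ℝ) ^ 2 ≤ K * (l:ℝ) ^ c * ((t1:ℝ) ^ (d + 1) / ((s:ℝ) ^ 2 * η) + (t1:ℝ) ^ d)

open scoped Classical in
/-- the count with the local lemma -/
theorem core_count' {d : ℕ} {P Q : Finset (EuclideanSpace ℝ (Fin d))} {s x t t1 l I : ℕ}
    {N κ FF K0 K' η : ℝ} {c0 c' : ℕ}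
    {F : Fin s → Finset (Finset (EuclideanSpace ℝ (Fin d)))}
    {jp : EuclideanSpace ℝ (Fin d) → ℕ}
    (h : Env P Q s x t t1 l I 256 N κ FF K0 K' η c0 c' F jp)
    (hB : DataB P Q s x l t1 I 256 (2 * Real.log N + 1) κ F jp)
    (hFew : FewBlocks d) (hTri : TriBlocks d) (hxl : x < 2 ^ l) (hx32 : 32 ≤ x) (Bd : ℝ)
    (hloc : ∀ X ⊆ P, ∀ P0 ⊆ P, X.card = x → (∀ p ∈ P0, Bad X (256 * (l:ℝ) ^ 2 * η) p) →
      (P0.card : ℝ) ≤ Bd) :
    (P.card : ℝ) ≤ 4 * Bd ∨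
    (P.card : ℝ) * Q.card ≤ 4 * (l:ℝ) ^ 2 * (TT d l I 256 c' FF κ (2 * Real.log N + 1) K' *
      ((t1:ℝ) ^ (d + 1) / ((s:ℝ) ^ 2 * η) + (t1:ℝ) ^ d)) := by
  have hη0 : 0 < η := by linarith only [h.hη1]
  have hκ0 : 0 < κ := by linarith only [h.hA.hκ1]
  have hl1 := h.l1
  have hl0 : (0:ℝ) < l := by linarith only [hl1]
  have hs0 : (0:ℝ) < s := by linarith only [h.s1]
  have hq0 : (0:ℝ) < Q.card := by linarith only [h.q1]
  have hx0' : (0:ℝ) < x := by linarith only [h.x1]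
  have hl1N : 1 ≤ l := Nat.one_le_two_pow.trans h.h5
  set BB : ℕ → ℕ → Finset (EuclideanSpace ℝ (Fin d)) := fun j a =>
    P.filter (fun p => jp p = j ∧ s * Q.card * 2 ^ j / (2 ^ 26 * κ * l) ≤
      mass (Jt F a (mu Q.card x η j a)) vv (hyp p)) with hBB
  set CC : ℕ → ℕ → Finset (EuclideanSpace ℝ (Fin d)) := fun j a =>
    P.filter (fun p => jp p = j ∧ hh s x η j a <
      ((rl (Jl F a) (mu Q.card x η j a) p).card : ℝ)) with hCC
  set R : ℝ := TT d l I 256 c' FF κ (2 * Real.log N + 1) K' *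
      ((t1:ℝ) ^ (d + 1) / ((s:ℝ) ^ 2 * η) + (t1:ℝ) ^ d) with hR
  have hR0 : 0 ≤ R := by
    rw [hR]
    have := h.TT0
    positivity
  set Cap : Finset (EuclideanSpace ℝ (Fin d)) :=
    (range l).biUnion (fun j => (range l).biUnion (fun a => BB j a ∪ CC j a)) with hCap
  set H := P.filter (fun p => p ∉ Cap) with hH
  -- number of captured points
  have hcap : (Cap.card : ℝ) * Q.card ≤ 2 * (l:ℝ) ^ 2 * R := by
    have h1 : Cap.card ≤ ∑ j ∈ range l, ∑ a ∈ range l, ((BB j a).card + (CC j a).card) := by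
      rw [hCap]
      refine card_biUnion_le.trans (Finset.sum_le_sum (fun j _ => ?_))
      refine card_biUnion_le.trans (Finset.sum_le_sum (fun a _ => ?_))
      exact card_union_le _ _
    have h2 : (Cap.card : ℝ) ≤ ∑ j ∈ range l, ∑ a ∈ range l,
        (((BB j a).card : ℝ) + ((CC j a).card : ℝ)) := by exact_mod_cast h1
    calc (Cap.card : ℝ) * Q.card ≤ (∑ j ∈ range l, ∑ a ∈ range l,
        (((BB j a).card : ℝ) + ((CC j a).card : ℝ))) * Q.card :=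
          mul_le_mul_of_nonneg_right h2 hq0.le
      _ = ∑ j ∈ range l, ∑ a ∈ range l,
        (((BB j a).card : ℝ) * Q.card + ((CC j a).card : ℝ) * Q.card) := by
          rw [Finset.sum_mul]
          apply Finset.sum_congr rfl
          intro j _
          rw [Finset.sum_mul]
          apply Finset.sum_congr rfl
          intro a _
          ring
      _ ≤ ∑ j ∈ range l, ∑ a ∈ range l, (R + R) := by
          apply Finset.sum_le_sum
          intro j _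
          apply Finset.sum_le_sum
          intro a _
          exact add_le_add (h.capB' j a) (h.capC' j a)
      _ = 2 * (l:ℝ) ^ 2 * R := by
          rw [Finset.sum_const, Finset.sum_const, card_range, nsmul_eq_mul, nsmul_eq_mul]
          ring
  have hsplit : (P.card : ℝ) ≤ H.card + Cap.card := by
    have h1 : P ⊆ H ∪ Cap := by
      intro p hp
      rw [mem_union, hH, mem_filter]
      by_cases h2 : p ∈ Cap
      · exact Or.inr h2
      · exact Or.inl ⟨hp, h2⟩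
    have h2 := (card_le_card h1).trans (card_union_le _ _)
    exact_mod_cast h2
  rcases le_or_gt ((P.card : ℝ)) (2 * H.card) with hbig | hsmall
  · left
    -- the local lemma
    have hBl : 0 < (Bl F).card := by
      have h1 := h.hA.hBlow
      by_contra h0
      have h2 : (Bl F).card = 0 := by omega
      rw [h2, Nat.cast_zero, mul_zero] at h1
      have h3 : 0 < (s:ℝ) * Q.card := by positivity
      linarith only [h1, h3]
    have hgood : ∀ p ∈ H, 8 * ((Bl F).filter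
        (fun B => ¬ Bad B.2 (256 * (l:ℝ) ^ 2 * η) p)).card ≤ 3 * (Bl F).card := by
      intro p hp
      rw [hH, mem_filter] at hp
      obtain ⟨hpP, hpC⟩ := hp
      obtain ⟨j, hj⟩ : ∃ j, j = jp p := ⟨_, rfl⟩
      have hjl : j < l := by rw [hj]; exact h.jlt p hpP
      have h2j : (0:ℝ) < 2 ^ j := by positivity
      have h2j1 : (1:ℝ) ≤ 2 ^ j := one_le_pow₀ (by norm_num)
      have hnot : ∀ a < l, mass (Jt F a (mu Q.card x η j a)) vv (hyp p) <
          s * Q.card * 2 ^ j / (2 ^ 26 * κ * l) ∧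
          ((rl (Jl F a) (mu Q.card x η j a) p).card : ℝ) ≤ hh s x η j a := by
        intro a ha
        have h1 : p ∉ BB j a ∪ CC j a := by
          intro h2
          apply hpC
          rw [hCap, mem_biUnion]
          refine ⟨j, mem_range.mpr hjl, ?_⟩
          rw [mem_biUnion]
          exact ⟨a, mem_range.mpr ha, h2⟩
        rw [mem_union, not_or] at h1
        constructor
        · by_contra h3
          push Not at h3
          apply h1.1
          simp only [hBB]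
          rw [mem_filter]
          exact ⟨hpP, hj.symm, h3⟩
        · by_contra h3
          push Not at h3
          apply h1.2
          simp only [hCC]
          rw [mem_filter]
          exact ⟨hpP, hj.symm, h3⟩
      have hη' : 0 < η / 2 ^ j := by positivity
      have hhe : ∀ a, hh s x η j a = s * (η / 2 ^ j) * 4 ^ a / (x:ℝ) ^ 2 := by
        intro a
        unfold hh
        (clear * - hx0'; field_simp)
      have hk : 256 * (l:ℝ) * (2 * Real.log N + 1) * (η / 2 ^ j) ≤ 256 * (l:ℝ) ^ 2 * η := by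
        have h1 : η / 2 ^ j ≤ η := div_le_self hη0.le h2j1
        have h2 : (l:ℝ) * (2 * Real.log N + 1) ≤ l * l := mul_le_mul_of_nonneg_left h.h4 hl0.le
        calc 256 * (l:ℝ) * (2 * Real.log N + 1) * (η / 2 ^ j)
            = 256 * (((l:ℝ) * (2 * Real.log N + 1)) * (η / 2 ^ j)) := by ring
          _ ≤ 256 * ((l * l) * η) := by
              apply mul_le_mul_of_nonneg_left _ (by norm_num)
              exact mul_le_mul h2 h1 hη'.le (by positivity)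
          _ = _ := by ring
      have hpin' : (P.image (dist p)).card ≤ t1 := by
        rw [h.ht1]; exact h.hpin p hpP
      rcases lt_or_ge ((2:ℝ) ^ j) (3072 * κ) with hjs | hjb
      · have h1 := hFew P Q s x l t1 I (2 * Real.log N + 1) κ F jp h.hA hl1N hxl hx32 (η / 2 ^ j)
          (fun a => mu Q.card x η j a) hη' p hpP hpin'
          (fun a ha => by
            have h2 := (hnot a ha).2
            rw [hhe a] at h2
            exact h2)
          (fun a ha => by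
            refine (hnot a ha).1.le.trans ?_
            rw [div_le_div_iff₀ (by positivity) (by positivity)]
            have h3 : (2:ℝ) ^ j * 1024 ≤ 2 ^ 26 * κ := by
              have : (2:ℝ) ^ j * 1024 ≤ 3072 * κ * 1024 := mul_le_mul_of_nonneg_right hjs.le (by norm_num)
              linarith only [this, hκ0]
            calc (s:ℝ) * Q.card * 2 ^ j * (1024 * l) = (s * Q.card * l) * (2 ^ j * 1024) := by ring
              _ ≤ (s * Q.card * l) * (2 ^ 26 * κ) := mul_le_mul_of_nonneg_left h3 (by positivity)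
              _ = _ := by ring)
        refine le_trans (Nat.mul_le_mul_left 8 (card_le_card ?_)) h1
        intro B hB'
        rw [mem_filter] at hB' ⊢
        refine ⟨hB'.1, fun h2 => hB'.2 ?_⟩
        have h3 : (x:ℝ) = B.2.card := by
          have h4 := hB'.1
          unfold Bl at h4
          rw [mem_sigma] at h4
          rw [h.hA.hFcard B.1 B.2 h4.2]
        rw [h3] at h2
        exact Bad_mono (fewM_bad B.2 _ p h2) hk
      · have h1 := hTri P Q s x l t1 I 256 (2 * Real.log N + 1) κ F jp hB hl1N hxl (η / 2 ^ j)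
          (fun a => mu Q.card x η j a) hη' p hpP (by rw [← hj]; exact hjb)
          (fun a ha => by
            have h2 := (hnot a ha).2
            rw [hhe a] at h2
            exact h2)
          (fun a ha => by
            rw [← hj]
            exact (hnot a ha).1.le)
        refine le_trans (Nat.mul_le_mul_left 8 (card_le_card ?_)) h1
        intro B hB'
        rw [mem_filter] at hB' ⊢
        exact ⟨hB'.1, fun h2 => hB'.2 (Bad_mono h2 hk)⟩
    obtain ⟨B, hBB', hBH⟩ := exists_block (Bl F) H (fun B p => Bad B.2 (256 * (l:ℝ) ^ 2 * η) p)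
      hBl hgood
    have hB2 : B.2 ∈ F B.1 := by
      unfold Bl at hBB'
      rw [mem_sigma] at hBB'
      exact hBB'.2
    have h1 := hloc B.2 ((h.hA.hFsub B.1 B.2 hB2).trans h.hA.hQP)
      (H.filter (fun p => Bad B.2 (256 * (l:ℝ) ^ 2 * η) p))
      ((filter_subset _ _).trans (filter_subset _ _))
      (h.hA.hFcard B.1 B.2 hB2) (fun p hp => (mem_filter.mp hp).2)
    have h2 : (H.card : ℝ) ≤ 2 * (H.filter (fun p => Bad B.2 (256 * (l:ℝ) ^ 2 * η) p)).card := by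
      exact_mod_cast hBH
    linarith only [h1, h2, hbig]
  · right
    have h1 : (P.card : ℝ) ≤ 2 * Cap.card := by linarith only [hsplit, hsmall]
    calc (P.card : ℝ) * Q.card ≤ (2 * Cap.card) * Q.card := mul_le_mul_of_nonneg_right h1 hq0.le
      _ = 2 * (Cap.card * Q.card) := by ring
      _ ≤ 2 * (2 * (l:ℝ) ^ 2 * R) := mul_le_mul_of_nonneg_left hcap (by norm_num)
      _ = 4 * (l:ℝ) ^ 2 * R := by ring

open scoped Classical in
theorem keyY_of (d : ℕ) (hd : 2 ≤ d) (hU : HasDataB d) (hF : FewBlocks d) (hT : TriBlocks d)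
    (hL : LightProp d) : ∃ (K : ℝ) (c A : ℕ), 1 ≤ K ∧ KeyY d K c A := by
  obtain ⟨K0, c0, hK0, hET⟩ := et_uniform d
  obtain ⟨K', c', hK', hL1⟩ := L1_all d
  obtain ⟨KT, cT, hKT, hTT⟩ := const_TT d c0 c' K0 K' hK0 hK'
  -- constants
  obtain ⟨X1, hX1⟩ : ∃ X : ℝ, X = 2 ^ 17 * 256 := ⟨_, rfl⟩
  obtain ⟨KS, hKS⟩ : ∃ KS : ℝ, KS = K0 ^ (d + 2) * (2 ^ 29 * (2 * 5 ^ (d + 1))) := ⟨_, rfl⟩
  obtain ⟨cS, hcS⟩ : ∃ cS : ℕ, cS = c0 * (d + 2) + (d + 1) + 2 := ⟨_, rfl⟩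
  obtain ⟨X2, hX2⟩ : ∃ X : ℝ, X = 2 ^ 15 * 3 ^ d * 256 * KS ^ (d - 1) := ⟨_, rfl⟩
  obtain ⟨X3, hX3⟩ : ∃ X : ℝ, X = 2 ^ 22 := ⟨_, rfl⟩
  obtain ⟨X4, hX4⟩ : ∃ X : ℝ, X = 4 * KT := ⟨_, rfl⟩
  obtain ⟨X5, hX5⟩ : ∃ X : ℝ, X = 2 ^ 15 * 3 ^ d * 256 := ⟨_, rfl⟩
  have hKS0 : 0 ≤ KS := by rw [hKS]; positivity
  have hX1p : 0 ≤ X1 := by rw [hX1]; positivity
  have hX2p : 0 ≤ X2 := by rw [hX2]; positivity
  have hX3p : 0 ≤ X3 := by rw [hX3]; positivity
  have hX4p : 0 ≤ X4 := by rw [hX4]; positivity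
  have hX5p : 0 ≤ X5 := by rw [hX5]; positivity
  obtain ⟨K, hK⟩ : ∃ K : ℝ, K = 1 + X1 + X2 + X3 + X4 + X5 := ⟨_, rfl⟩
  obtain ⟨c, hc⟩ : ∃ c : ℕ, c = 3 + (d + 3 + cS * (d - 1)) + (3 + cT) := ⟨_, rfl⟩
  obtain ⟨A, hA⟩ : ∃ A : ℕ, A = 2 ^ 25 * 5 ^ d := ⟨_, rfl⟩
  have hA256 : 256 ≤ A := by
    rw [hA]
    have : 1 ≤ 5 ^ d := Nat.one_le_pow _ _ (by norm_num)
    calc 256 ≤ 2 ^ 25 * 1 := by norm_num
      _ ≤ 2 ^ 25 * 5 ^ d := Nat.mul_le_mul_left _ this
  have hA256R : (256:ℝ) ≤ A := by exact_mod_cast hA256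
  refine ⟨K, c, A, by rw [hK]; linarith only [hX1p, hX2p, hX3p, hX4p, hX5p], ?_⟩
  intro P t t1 l I N ht1 hpin hN h4 h5 h6 h7 h8 h9 hflat htop
  obtain ⟨Λ, hΛd⟩ : ∃ Λ, Λ = 2 * Real.log N + 1 := ⟨_, rfl⟩
  have hlogN : 0 ≤ Real.log N := Real.log_nonneg hN
  have hΛ1 : 1 ≤ Λ := by rw [hΛd]; linarith only [hlogN]
  have hΛ0 : 0 < Λ := by linarith only [hΛ1]
  have htR : (1:ℝ) ≤ t1 := by
    rw [ht1]; push_cast; have : (0:ℝ) ≤ t := by (clear * -; positivity)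
    linarith only []
  have ht0 : (0:ℝ) < t1 := by linarith only [htR]
  have ht1n : 1 ≤ t1 := by omega
  have hl1 : 1 ≤ l := Nat.one_le_two_pow.trans h5
  have hlR : (1:ℝ) ≤ l := by exact_mod_cast hl1
  have hl0 : (0:ℝ) < l := by linarith only [hlR]
  have hΛl : Λ ≤ l := by rw [hΛd]; exact h4
  have hIl : (2:ℝ) ^ I ≤ l := by
    have h5R : (2:ℝ) ^ (I + 1) ≤ l := by exact_mod_cast h5
    have : (2:ℝ) ^ (I + 1) = 2 * 2 ^ I := by ring
    rw [this] at h5R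
    have h2 : (0:ℝ) < 2 ^ I := by positivity
    linarith only [h5R]
  have hn0 : (0:ℝ) ≤ P.card := by (clear * -; positivity)
  by_cases hbig : 2 ^ (2 * I + 17) * (2 * Real.log N + 1) * (((256 * t1 : ℕ)) : ℝ) < P.card
  swap
  · left
    push Not at hbig
    rw [← hΛd] at hbig
    have h1 : (2:ℝ) ^ (2 * I + 17) * Λ ≤ 2 ^ 17 * (l:ℝ) ^ 3 := by
      have e2 : (2:ℝ) ^ (2 * I + 17) = 2 ^ 17 * (2 ^ I) ^ 2 := by rw [← pow_mul]; ring
      rw [e2]
      have e3 : ((2:ℝ) ^ I) ^ 2 ≤ (l:ℝ) ^ 2 := pow_le_pow_left₀ (by positivity) hIl 2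
      calc 2 ^ 17 * ((2:ℝ) ^ I) ^ 2 * Λ ≤ 2 ^ 17 * (l:ℝ) ^ 2 * l := by
            apply mul_le_mul _ hΛl hΛ0.le (by positivity)
            linarith only [e3]
        _ = 2 ^ 17 * (l:ℝ) ^ 3 := by ring
    have h2 : (P.card : ℝ) ≤ X1 * (l:ℝ) ^ 3 * t1 := by
      refine hbig.trans ?_
      calc 2 ^ (2 * I + 17) * Λ * (((256 * t1 : ℕ)) : ℝ) ≤ 2 ^ 17 * (l:ℝ) ^ 3 * (((256 * t1 : ℕ)) : ℝ) :=
            mul_le_mul_of_nonneg_right h1 (by positivity)
        _ = X1 * (l:ℝ) ^ 3 * t1 := by rw [hX1]; push_cast; ring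
    exact h2.trans (absorb3 _ _ _ _ _ _ hX1p
      (by rw [hK]; linarith only [hX1p, hX2p, hX3p, hX4p, hX5p]) hlR ht0.le (by rw [hc]; omega))
  -- the data
  obtain ⟨κ, hκd⟩ : ∃ κ : ℝ, κ = 2 * (5 * (l:ℝ)) ^ (d + 1) := ⟨_, rfl⟩
  have hPpos : (0:ℝ) < P.card := lt_of_le_of_lt (by (clear * - hlogN; positivity)) hbig
  have hP : P.Nonempty := by rw [← card_pos]; exact_mod_cast hPpos
  have hn1 : (1:ℝ) ≤ P.card := by exact_mod_cast hP.card_pos
  have hPN : (P.card : ℝ) ≤ N := by nlinarith only [h7, hn1]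
  have hcast : (((256 * t1 : ℕ)) : ℝ) = 256 * t1 := by push_cast; ring
  have h6' : 16 * (2 * Real.log N + 1) * ((((256 * t1 : ℕ)) : ℝ) + 2) ≤ (l:ℝ) ^ I := by
    refine le_trans ?_ h6
    rw [hcast, ← hΛd]
    apply mul_le_mul_of_nonneg_left _ (by positivity)
    have := mul_le_mul_of_nonneg_right hA256R ht0.le
    linarith only [this]
  have h6'' : 16 * (2 * Real.log N + 1) * ((t1:ℝ) + 2) ≤ (l:ℝ) ^ I := by
    refine le_trans ?_ h6'
    rw [hcast, ← hΛd]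
    apply mul_le_mul_of_nonneg_left _ (by positivity)
    linarith only [ht0]
  have hgd : ∀ s : ℕ, 16 * (2 * Real.log N + 1) * ((((256 * t1 : ℕ)) : ℝ) + 2) ≤ s →
      ¬ Gd P P (S2 P) rng s 2 := by
    intro s hs
    apply htop s
    refine le_trans ?_ hs
    rw [hcast, ← hΛd]
    apply mul_le_mul_of_nonneg_left _ (by positivity)
    linarith only [ht0]
  obtain ⟨s, x, Q, F, jp, hB⟩ := hU 256 P t1 l I N κ (by norm_num) ht1n
    (fun p hp => by rw [ht1]; exact hpin p hp) hN h4 h5 h6' h7 hbig hκd hgd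
  have hDA := hB.toA
  have hs1 : (1:ℝ) ≤ s := by exact_mod_cast hDA.hs1
  have hs0 : (0:ℝ) < s := by linarith only [hs1]
  have hx8 : (8:ℝ) ≤ x := by exact_mod_cast hDA.hx8
  have hx0' : (0:ℝ) < x := by linarith only [hx8]
  have hq1 : (1:ℝ) ≤ Q.card := by exact_mod_cast hDA.hQne.card_pos
  have hq0 : (0:ℝ) < Q.card := by linarith only [hq1]
  have hQN : (Q.card : ℝ) ≤ N := le_trans (by exact_mod_cast card_le_card hDA.hQP) hPN
  have hκ0 : 0 < κ := by rw [hκd]; positivity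
  obtain ⟨FF, hFF⟩ : ∃ FF : ℝ, FF = K0 * (l:ℝ) ^ c0 := ⟨_, rfl⟩
  have hFF1 : 1 ≤ FF := by
    rw [hFF]; exact one_le_mul_of_one_le_of_one_le hK0 (one_le_pow₀ hlR)
  have hFF0 : 0 < FF := by linarith only [hFF1]
  have hcell : (P.card : ℝ) ≤ (2 ^ 15 * 3 ^ d * 256) * (l:ℝ) ^ (d + 3) * t1 * (s:ℝ) ^ (d - 1) := by
    have h1 := hDA.hcell
    refine h1.trans (le_of_eq ?_)
    push_cast
    ring
  -- small scale
  by_cases hsbig : FF ^ (d + 2) * (2 ^ 29 * κ * l * (2 * Real.log N + 1)) < s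
  swap
  · left
    push Not at hsbig
    rw [← hΛd] at hsbig
    have h1 : (s:ℝ) ≤ KS * (l:ℝ) ^ cS := by
      refine hsbig.trans ?_
      calc FF ^ (d + 2) * (2 ^ 29 * κ * l * Λ) ≤ FF ^ (d + 2) * (2 ^ 29 * κ * l * l) := by
            apply mul_le_mul_of_nonneg_left _ (by positivity)
            exact mul_le_mul_of_nonneg_left hΛl (by positivity)
        _ = KS * (l:ℝ) ^ cS := by
            rw [hFF, hκd, hKS, hcS, mul_pow K0, mul_pow 5 (l:ℝ), ← pow_mul,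
              pow_add (l:ℝ) (c0 * (d + 2) + (d + 1)) 2, pow_add (l:ℝ) (c0 * (d + 2)) (d + 1)]
            ring
    have h2 : (s:ℝ) ^ (d - 1) ≤ (KS * (l:ℝ) ^ cS) ^ (d - 1) := pow_le_pow_left₀ hs0.le h1 _
    have h3 : (P.card : ℝ) ≤ X2 * (l:ℝ) ^ (d + 3 + cS * (d - 1)) * t1 := by
      refine hcell.trans ((mul_le_mul_of_nonneg_left h2 (by positivity)).trans (le_of_eq ?_))
      rw [hX2, mul_pow KS, ← pow_mul, pow_add (l:ℝ) (d + 3)]
      ring
    exact h3.trans (absorb3 _ _ _ _ _ _ hX2p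
      (by rw [hK]; linarith only [hX1p, hX2p, hX3p, hX4p, hX5p]) hlR ht0.le (by rw [hc]; omega))
  -- logarithms
  have hxs : (x:ℝ) * s ≤ 2 ^ 22 * (l:ℝ) ^ 2 * t1 := by
    have h1 := hDA.hxup
    rw [le_div_iff₀ hs0, ← hΛd] at h1
    refine h1.trans ?_
    have h2 : (2:ℝ) ^ (I + 14) * Λ ≤ 2 ^ 14 * ((l:ℝ) * l) := by
      rw [pow_add]
      calc (2:ℝ) ^ I * 2 ^ 14 * Λ = 2 ^ 14 * (2 ^ I * Λ) := by ring
        _ ≤ 2 ^ 14 * ((l:ℝ) * l) := by
            apply mul_le_mul_of_nonneg_left _ (by positivity)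
            exact mul_le_mul hIl hΛl hΛ0.le (by positivity)
    calc (2:ℝ) ^ (I + 14) * Λ * (((256:ℕ):ℝ) * t1) ≤ 2 ^ 14 * ((l:ℝ) * l) * (((256:ℕ):ℝ) * t1) :=
          mul_le_mul_of_nonneg_right h2 (by positivity)
      _ = 2 ^ 22 * (l:ℝ) ^ 2 * t1 := by push_cast; ring
  have hAR : (A:ℝ) = 2 ^ 25 * 5 ^ d := by rw [hA]; push_cast; ring
  have h5d : (1:ℝ) ≤ 5 ^ d := one_le_pow₀ (by norm_num)
  have hY1 : 8 * 5 ^ d * ((s:ℝ) * Q.card * x) ≤ A * N * (l:ℝ) ^ 2 * t1 := by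
    calc 8 * 5 ^ d * ((s:ℝ) * Q.card * x) = (8 * 5 ^ d * Q.card) * (x * s) := by ring
      _ ≤ (8 * 5 ^ d * Q.card) * (2 ^ 22 * (l:ℝ) ^ 2 * t1) := mul_le_mul_of_nonneg_left hxs (by positivity)
      _ = (2 ^ 25 * 5 ^ d * (l:ℝ) ^ 2 * t1) * Q.card := by ring
      _ ≤ (2 ^ 25 * 5 ^ d * (l:ℝ) ^ 2 * t1) * N := mul_le_mul_of_nonneg_left hQN (by positivity)
      _ = _ := by rw [hAR]; ring
  have hlog : 20 * (Real.log (8 * 5 ^ d * (s * Q.card * x) + 3) + 1) ≤ l := by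
    refine le_trans ?_ h9
    have h1 := Real.log_le_log (show (0:ℝ) < 8 * 5 ^ d * (s * Q.card * x) + 3 by positivity)
      (show 8 * 5 ^ d * ((s:ℝ) * Q.card * x) + 3 ≤ A * N * (l:ℝ) ^ 2 * t1 + 3 by linarith only [hY1])
    linarith only [h1]
  have hxl : x < 2 ^ l := by
    apply lt_two_pow_of_log x l (A * N * (l:ℝ) ^ 2 * t1) hl1 _ h9
    refine le_trans ?_ hY1
    have h1 : (x:ℝ) * 1 ≤ x * (8 * 5 ^ d * (s * Q.card)) := by
      apply mul_le_mul_of_nonneg_left _ hx0'.le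
      have h2 : (1:ℝ) ≤ 8 * 5 ^ d := one_le_mul_of_one_le_of_one_le (by norm_num) h5d
      exact one_le_mul_of_one_le_of_one_le h2 (one_le_mul_of_one_le_of_one_le hs1 hq1)
    linarith only [h1]
  have hts : (t1:ℝ) ≤ x * s := by
    have h1 := hDA.hxlow
    rw [← hΛd] at h1
    have e1 : 1024 * (Λ / s) * (((256:ℕ):ℝ) * t1) = (262144 * Λ) * t1 / s := by push_cast; ring
    rw [e1, div_le_iff₀ hs0] at h1
    refine le_trans ?_ h1
    exact le_mul_of_one_le_left ht0.le (by linarith only [hΛ1])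
  have hEnv0 : Env P Q s x t t1 l I 256 N κ FF K0 K' 1 c0 c' F jp :=
    ⟨hd, hK0, hET, hK', hL1, hL, hDA, ht1, hpin, hN, h4, h5, h6'', by norm_num, hPN, h8, hflat, hFF,
      le_refl _, hq1, hsbig, hlog⟩
  have hTT' : TT d l I 256 c' FF κ (2 * Real.log N + 1) K' ≤ KT * (l:ℝ) ^ cT := by
    have h1 := hTT l I (2 * Real.log N + 1) hlR (by rw [← hΛd]; exact hΛ1) h4 hIl
    rw [← hFF, ← hκd] at h1
    exact h1
  have hTT0 := hEnv0.TT0
  have hsq : (P.card : ℝ) ^ 2 ≤ l * (P.card * Q.card) := by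
    rw [sq]
    calc (P.card : ℝ) * P.card ≤ P.card * (l * Q.card) := mul_le_mul_of_nonneg_left hDA.hPQ hn0
      _ = _ := by ring
  right
  refine ⟨s, x, hDA.hs1, by have := hDA.hx8; omega, ?_, ?_, hts, ?_, ?_⟩
  · refine hcell.trans ?_
    have e1 : (2 ^ 15 * 3 ^ d * 256) * (l:ℝ) ^ (d + 3) * t1 * (s:ℝ) ^ (d - 1) =
        X5 * (l:ℝ) ^ (d + 3) * (t1 * (s:ℝ) ^ (d - 1)) := by rw [hX5]; ring
    rw [e1]
    exact absorb3 _ _ _ _ _ _ hX5p
      (by rw [hK]; linarith only [hX1p, hX2p, hX3p, hX4p, hX5p]) hlR (by positivity)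
      (by rw [hc]; omega)
  · refine hxs.trans ?_
    rw [← hX3]
    exact absorb3 _ _ _ _ _ _ hX3p
      (by rw [hK]; linarith only [hX1p, hX2p, hX3p, hX4p, hX5p]) hlR ht0.le
      (by rw [hc]; omega)
  · have h1 : (P.card : ℝ) ^ 2 ≤ X4 * (l:ℝ) ^ (2 + cT) *
        ((t1:ℝ) ^ (d + 1) / (s:ℝ) ^ 2 + (t1:ℝ) ^ d) := by
      calc (P.card : ℝ) ^ 2 ≤ l * (P.card * Q.card) := hsq
        _ ≤ l * (l * (TT d l I 256 c' FF κ (2 * Real.log N + 1) K' *
            ((t1:ℝ) ^ (d + 1) / (s:ℝ) ^ 2 + (t1:ℝ) ^ d))) :=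
            mul_le_mul_of_nonneg_left hEnv0.plain hl0.le
        _ ≤ l * (l * ((KT * (l:ℝ) ^ cT) *
            ((t1:ℝ) ^ (d + 1) / (s:ℝ) ^ 2 + (t1:ℝ) ^ d))) := by
            apply mul_le_mul_of_nonneg_left _ hl0.le
            apply mul_le_mul_of_nonneg_left _ hl0.le
            exact mul_le_mul_of_nonneg_right hTT' (by positivity)
        _ = KT * (l:ℝ) ^ (2 + cT) * ((t1:ℝ) ^ (d + 1) / (s:ℝ) ^ 2 + (t1:ℝ) ^ d) := by
            rw [pow_add (l:ℝ) 2 cT]; ring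
        _ ≤ X4 * (l:ℝ) ^ (2 + cT) * ((t1:ℝ) ^ (d + 1) / (s:ℝ) ^ 2 + (t1:ℝ) ^ d) := by
            apply mul_le_mul_of_nonneg_right _ (by positivity)
            apply mul_le_mul_of_nonneg_right _ (by positivity)
            rw [hX4]; linarith only [hKT]
    exact h1.trans (absorb3 _ _ _ _ _ _ hX4p
      (by rw [hK]; linarith only [hX1p, hX2p, hX3p, hX4p, hX5p]) hlR (by positivity)
      (by rw [hc]; omega))
  · intro η Bd hη1 hx32 hloc
    by_cases hηQ : η ≤ Q.card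
    swap
    · right; left
      push Not at hηQ
      exact hDA.hPQ.trans (mul_le_mul_of_nonneg_left hηQ.le hl0.le)
    have hη0 : 0 < η := by linarith only [hη1]
    have hEnv : Env P Q s x t t1 l I 256 N κ FF K0 K' η c0 c' F jp :=
      ⟨hd, hK0, hET, hK', hL1, hL, hDA, ht1, hpin, hN, h4, h5, h6'', by norm_num, hPN, h8, hflat,
        hFF, hη1, hηQ, hsbig, hlog⟩
    rcases core_count' hEnv hB hF hT hxl hx32 Bd hloc with h | h
    · left
      exact h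
    · right; right
      have h1 : (P.card : ℝ) ^ 2 ≤ X4 * (l:ℝ) ^ (3 + cT) *
          ((t1:ℝ) ^ (d + 1) / ((s:ℝ) ^ 2 * η) + (t1:ℝ) ^ d) := by
        calc (P.card : ℝ) ^ 2 ≤ l * (P.card * Q.card) := hsq
          _ ≤ l * (4 * (l:ℝ) ^ 2 * (TT d l I 256 c' FF κ (2 * Real.log N + 1) K' *
              ((t1:ℝ) ^ (d + 1) / ((s:ℝ) ^ 2 * η) + (t1:ℝ) ^ d))) :=
              mul_le_mul_of_nonneg_left h hl0.le
          _ ≤ l * (4 * (l:ℝ) ^ 2 * ((KT * (l:ℝ) ^ cT) *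
              ((t1:ℝ) ^ (d + 1) / ((s:ℝ) ^ 2 * η) + (t1:ℝ) ^ d))) := by
              apply mul_le_mul_of_nonneg_left _ hl0.le
              apply mul_le_mul_of_nonneg_left _ (by positivity)
              exact mul_le_mul_of_nonneg_right hTT' (by positivity)
          _ = _ := by rw [hX4, pow_add (l:ℝ) 3 cT]; ring
      exact h1.trans (absorb3 _ _ _ _ _ _ hX4p
        (by rw [hK]; linarith only [hX1p, hX2p, hX3p, hX4p, hX5p]) hlR (by positivity)
        (by rw [hc]; omega))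

end Vale.Agent.P054I
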